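import Crest.Agent.X212.Cyl12.Fj

/-!
# Row 212, CYC-LIM (helper12): LIT, the literal cyclic seed is a value
-/

set_option autoImplicit false
set_option linter.unusedSectionVars false
noncomputable section
open scoped Manifold ContDiff Topology InnerProductSpace
open MeasureTheory Set Function Filter

namespace Crest.Agent.X212.Cyl12
open An Dgr80 Cyc79 Sob92
open Mp86 hiding kB
open Wz78 (nab lap)
open Abel74 (SBd)
open Cmp73 (VW Rs vw_wd)
open Wrd81 (wd)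
open ContinuousLinearMap (adjoint)

variable {E : Type} [NormedAddCommGroup E] [NormedSpace ℝ E] [FiniteDimensional ℝ E]
  [MeasurableSpace E] [BorelSpace E]
  {HM : Type} [TopologicalSpace HM] {I : ModelWithCorners ℝ E HM} [I.Boundaryless]
  {M : Type} [TopologicalSpace M] [ChartedSpace HM M] [IsManifold I ∞ M]
  [MeasurableSpace M] [T2Space M] [BorelSpace M] [SecondCountableTopology M]
  {ι : Type} [Fintype ι] {F : Fr I M ι}
  {κ : Type} [Fintype κ] [DecidableEq κ] {A : ι → M → En κ} {p L : M → En κ}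
  {U : Type} [NormedAddCommGroup U] [InnerProductSpace ℝ U] [CompleteSpace U]
  {α β γ s l e : M → VV F.toPre κ} {f f' φ : M → ℝ} {S k R T : ℝ} {n : ℕ} {w w' : List (La M)}
  {G X Y : KK F.toPre κ →L[ℝ] KK F.toPre κ} {t : La M}

variable (I) in
/-- smooth letters of size `k` -/
def LK (k : ℝ) : La M → Prop
  | .mul f => Sm I f ∧ ∀ x, |f x| ≤ k
  | .G => True

theorem LK.mono (h : LK I k t) {k' : ℝ} (hk : k ≤ k') : LK I k' t := by
  cases t with
  | mul f => exact ⟨h.1, fun x => (h.2 x).trans hk⟩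
  | G => trivial

theorem lk_of (h : La.OK F t) (h' : LaSz n t) : LK I n t := by
  cases t with
  | mul f => exact ⟨cb_sm h, h'⟩
  | G => trivial

theorem LK.sbd (h : LK I k (.mul f)) : SBd I f := ⟨h.1, k, h.2⟩

theorem lk_xw (h : LK I k (.mul f)) (h' : LK I k (.mul f')) : ∀ t ∈ xw f f', LK I k t := by
  simp only [xw, List.mem_cons, List.not_mem_nil, or_false]
  rintro t (rfl | rfl | rfl)
  exacts [h, trivial, h']

variable (F A) in
/-- letters -/
abbrev sv (t : La M) : (M → VV F.toPre κ) → M → VV F.toPre κ := sl F (aA _ A) (laV _ t)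

theorem wd_sv : wd (sl F (aA _ A)) s (w.map (laV _)) = wd (sv F A) s w := List.foldr_map

variable (F p) in
/-- the class of fields -/
def QB (α : M → VV F.toPre κ) : Prop := SBd I α ∧ ∀ x, amp _ (p x) (α x) = α x

theorem sbd_sv (ht : LK I k t) (hs : SBd I s) : SBd I (sv F A t s) := by
  cases t with
  | mul f => exact ht.sbd.smul hs
  | G => exact ⟨sm_res F _ _, bdd_res F _ _⟩

theorem sbd_wd (hw : ∀ t ∈ w, LK I k t) (hs : SBd I s) : SBd I (wd (sv F A) s w) :=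
  (vw_wd (st := fun _ _ _ => True) (op := sv F A) hs (fun _ _ a b => ⟨sbd_sv a b, trivial⟩) w hw).1

section
variable (h : Pq F A p)
include h

theorem qb_sv (t : La M) (s : M → VV F.toPre κ) (ht : LK I k t) (hs : QB F p s) :
    QB F p (sv F A t s) ∧ vH _ F A p t s (sv F A t s) := by
  cases t with
  | mul f => exact ⟨⟨sbd_sv ht hs.1, fun x => (map_smul _ _ _).trans (congrArg _ (hs.2 x))⟩, rfl⟩
  | G =>
    have r := res_amp h.tame.choose_spec h.mc hs.1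
    have e : ∀ x, amp _ (p x) (F.res (aA _ A) s x) = F.res (aA _ A) s x := fun x => ext_ct fun g => by
      rw [ct_amp, r.2, h.fix fun y => by rw [← ct_amp, hs.2]]
    exact ⟨⟨sbd_sv ht hs.1, e⟩, ⟨r.1.1, r.1.2.2, fun _ hm => norm_res_le h.bmp (h.mcA _) hm⟩, e⟩

theorem qb_wd (hw : ∀ t ∈ w, LK I k t) (hs : QB F p s) :
    QB F p (wd (sv F A) s w) ∧ VW (vH _ F A p) s w (wd (sv F A) s w) := vw_wd hs (qb_sv h) w hw

theorem sv_fb (hγ : SBd I γ) : sv F A t (fun z => fb X (γ z)) = fun z => fb X (sv F A t γ z) := by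
  cases t with
  | mul f => exact funext fun z => (map_smul (fb X) _ _).symm
  | G => exact res_eq h.bmp (h.mcA _) (isRes_fb h.mc.sm X (res_amp h.tame.choose_spec h.mc hγ).1)

theorem wd_fb (hγ : SBd I γ) : ∀ {w : List (La M)}, (∀ t ∈ w, LK I k t) →
    wd (sv F A) (fun z => fb X (γ z)) w = fun z => fb X (wd (sv F A) γ w z)
  | [], _ => rfl
  | t :: w, hw => by
    have hw' : ∀ t ∈ w, LK I k t := fun t ht => hw t (List.mem_cons_of_mem _ ht)
    rw [Wrd81.wd_cons, wd_fb hγ hw', sv_fb h (sbd_wd hw' hγ), Wrd81.wd_cons]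

theorem sv_le (hk : 1 ≤ k) (ht : LK I k t) (hs : ∀ x, ‖s x‖ ≤ T) (x : M) :
    ‖sv F A t s x‖ ≤ k * T :=
  (sl_le h.bmp (h.mcA _) hk (by
    cases t with
    | mul f => exact le_mul ht.2
    | G => trivial) hs x).1

theorem wd_le' (hk : 1 ≤ k) (hs : ∀ x, ‖s x‖ ≤ T) (hw : ∀ t ∈ w, LK I k t) (hn : w.length ≤ n)
    (x : M) : ‖wd (sv F A) s w x‖ ≤ k ^ n * T := by
  rw [← wd_sv]
  refine WL.wd ⟨by simpa using hn, fun t ht => ?_⟩ h.bmp (h.mcA _) hk hs x
  obtain ⟨t, h1, rfl⟩ := List.mem_map.1 ht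
  cases t with
  | mul f => exact le_mul (hw _ h1).2
  | G => trivial

theorem exists_wO (hG : JO F G (F.res A)) (g2 : ‖G‖ ≤ 2) (hk : 2 ≤ k) : ∀ {w : List (La M)},
    (∀ t ∈ w, LK I k t) → ∃ W : KK F.toPre κ →L[ℝ] KK F.toPre κ, ‖W‖ ≤ k ^ w.length ∧
      ∀ (X : KK F.toPre κ →L[ℝ] KK F.toPre κ) α, FJ F X α → FJ F (W ∘L X) (wd (sv F A) α w)
  | [], _ => ⟨.id ℝ _, ContinuousLinearMap.norm_id_le.trans_eq (pow_zero k).symm, fun _ _ a => a⟩
  | t :: w, hw => by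
    obtain ⟨W, a, b⟩ := exists_wO hG g2 hk fun t ht => hw t (List.mem_cons_of_mem _ ht)
    have ht := hw t List.mem_cons_self
    have m : ∀ V : KK F.toPre κ →L[ℝ] KK F.toPre κ, ‖V‖ ≤ k → ‖V ∘L W‖ ≤ k ^ (t :: w).length :=
      fun V hV => (V.opNorm_comp_le W).trans (by rw [List.length_cons, pow_succ']; gcongr)
    cases t with
    | mul f =>
      refine ⟨_, m _ (jo_mul (sbd_one ht.sbd).1 (by linarith) fun x => le_mul (V := Eu κ) ht.2 x).1,
        fun X α c => ?_⟩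
      have := (b X α c).op (sbd_one ht.sbd)
      simp only [amp_smul_one] at this
      exact this
    | G => exact ⟨_, m G (g2.trans hk), fun X α c => (b X α c).res h.tame.choose_spec h.mc hG⟩

theorem fj_x (hG : JO F G (F.res A)) (hf : SBd I f) (hf' : SBd I f') (a : FJ F X α)
    (q : QB F p α) : FJ F (xJ F p G f f' ∘L X) (wd (sv F A) α (xw f f')) := by
  have := (((a.op h.sbd).op (sbd_one hf')).res h.tame.choose_spec h.mc hG).op (sbd_one hf)
  simp only [amp_smul_one, q.2] at this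
  exact this

omit h in
variable (F A) in
/-- the transported test fields are strong -/
def SG (R : ℝ) (e : M → VV F.toPre κ) : List (La M) → (M → VV F.toPre κ) → Prop
  | [], _ => True
  | .mul f :: w, l => SG R e w (sv F A (.mul f) l)
  | .G :: w, l => St (LJ F) R e (sv F A .G l) ∧ SG R e w (sv F A .G l)

theorem vG_of {ρ : CL U (En κ)} (hs : QB F p s) : ∀ {w : List (La M)} {l : M → VV F.toPre κ},
    (∀ t ∈ w, LK I k t) → QB F p l → SG F A R e w l →
      vG F A p (LJ F) ρ R e s w l (gc F (aA _ A) (hr _ ρ) s (w.map (laV _)) l)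
  | [], _, _, _, _ => rfl
  | .mul f :: w, l, hw, hl, g => by
    rw [List.map_cons, laV, gc, ← laV, slT_laV]
    exact vG_of hs (fun t ht => hw t (List.mem_cons_of_mem _ ht))
      (qb_sv h _ _ (hw _ List.mem_cons_self) hl).1 g
  | .G :: w, l, hw, hl, g => by
    have hw' : ∀ t ∈ w, LK I k t := fun t ht => hw t (List.mem_cons_of_mem _ ht)
    have a := qb_wd h hw' hs
    have b := qb_sv (k := k) h .G _ trivial hl
    exact ⟨_, _, _, _, a.2, (qb_sv (k := k) h .G _ trivial a.1).2, b.2, g.1, vG_of hs hw' b.1 g.2, by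
      rw [← wd_sv]; rfl⟩

theorem sg_fb (he : FJ F X e) (hk : 1 ≤ k) : ∀ {w : List (La M)} {γ : M → VV F.toPre κ} {T : ℝ},
    (∀ t ∈ w, LK I k t) → SBd I γ → 0 ≤ T → (∀ z, ‖γ z‖ ≤ T) → k ^ w.length * T ≤ R →
      SG F A R e w fun z => fb X (γ z)
  | [], _, _, _, _, _, _, _ => trivial
  | t :: w, γ, T, hw, a, T0, b, c => by
    have ht := hw t List.mem_cons_self
    have hb := sv_le h hk ht b
    have k := sg_fb he hk (fun t ht => hw t (List.mem_cons_of_mem _ ht)) (sbd_sv (A := A) ht a)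
      (by positivity) hb (by rwa [← mul_assoc, ← pow_succ])
    rw [← sv_fb h a] at k
    cases t with
    | mul f => exact k
    | G => exact ⟨he.st (congrFun (sv_fb h a)) fun z => (hb z).trans (le_trans
        (mul_le_mul_of_nonneg_right (le_self_pow₀ hk (by simp)) T0) c), k⟩

end

variable (F A p) in
/-- the two base fields with their operators -/
structure BJ (f f' : M → ℝ) (k : ℝ) (G : KK F.toPre κ →L[ℝ] KK F.toPre κ) : Prop where
  pq : Pq F A p
  jo : JO F G (F.res A)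
  sy : adjoint G = G
  g2 : ‖G‖ ≤ 2
  two : 2 ≤ k
  l : LK I k (.mul f)
  l' : LK I k (.mul f')
  j : FJ F (xJ F p G f f') (bs F A p f f')
  j' : FJ F (xJ F p G f' f) (bs F A p f' f)
  q : QB F p (bs F A p f f')
  q' : QB F p (bs F A p f' f)
  n : ∀ x, ‖bs F A p f f' x‖ ≤ k
  n' : ∀ x, ‖bs F A p f' f x‖ ≤ k

namespace BJ
variable (h : BJ F A p f f' k G)
include h

theorem symm : BJ F A p f' f k G :=
  ⟨h.pq, h.jo, h.sy, h.g2, h.two, h.l', h.l, h.j', h.j, h.q', h.q, h.n', h.n⟩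

theorem one : 1 ≤ k := one_le_two.trans h.two

theorem adj : adjoint (xJ F p G f' f) = xJ F p G f f' :=
  adj_xJ h.pq h.sy h.l.sbd h.l'.sbd (h.j.fix h.pq h.q.2) (h.j'.fix h.pq h.q'.2)

theorem lk (hw : ∀ t ∈ w, LK I k t) : ∀ t ∈ w ++ xw f f', LK I k t := fun t ht =>
  (List.mem_append.1 ht).elim (hw t) (lk_xw h.l h.l' t)

theorem wd_eq (hw : ∀ t ∈ w, LK I k t) : wd (sv F A) (bs F A p f' f) (w ++ xw f f') =
    fun z => fb (xJ F p G f f') (wd (sv F A) (bs F A p f f') w z) := by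
  rw [Wrd81.wd_append, (fj_x h.pq h.jo h.l.sbd h.l'.sbd h.j' h.q').unique (h.j.right _), h.adj,
    wd_fb h.pq h.q.1 hw]

theorem st (hw : ∀ t ∈ w, LK I k t) (hn : w.length ≤ n) (hR : k ^ n * k ≤ R) :
    St (LJ F) R (bs F A p f f') (wd (sv F A) (bs F A p f' f) (w ++ xw f f')) :=
  h.j.st (congrFun (h.wd_eq hw)) fun z => (wd_le' h.pq h.one h.n hw hn z).trans hR

theorem vgh {ρ : CL U (En κ)} (hw : ∀ t ∈ w, LK I k t) (hn : w.length ≤ n)
    (hw' : ∀ t ∈ w', LK I k t) (hn' : w'.length ≤ n) (hL : Sm I L) (T0 : 0 ≤ T) (bL : ∀ x, ‖L x‖ ≤ T)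
    (pL : ∀ x, p x * (L x * p x) = L x * p x) :
    vgh F A p (LJ F) ρ (k ^ (n + 3) * (T * (k ^ n * k))) f f' (bs F A p f f') (bs F A p f' f) w w' L
      (wd (sv F A) (bs F A p f' f) (w' ++ xw f f')) fun x =>
      gc F (aA _ A) (hr _ ρ) (bs F A p f' f) ((w ++ xw f f').map (laV _)) (fun x => amp _ (L x)
        (wd (sl F (aA _ A)) (bs F A p f' f) ((w' ++ xw f f').map (laV _)) x)) x +
      gc F (aA _ A) (hr _ ρ) (bs F A p f f') ((xw f' f).map (laV _))
        (bk F (aA _ A) ((w ++ xw f f').map (laV _)) fun x => amp _ (L x)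
          (wd (sl F (aA _ A)) (bs F A p f f') (w'.map (laV _)) x)) x := by
  have k1 := h.one
  have sL : SBd I L := ⟨hL, T, bL⟩
  have qL : ∀ {α}, QB F p α → QB F p fun x => amp _ (L x) (α x) := fun q => ⟨sbd_amp sL q.1,
    fun x => by beta_reduce; rw [← q.2 x, amp_amp, amp_amp, amp_amp, mul_assoc, pL]⟩
  have u := qb_wd h.pq hw' h.q
  have hr : ∀ t ∈ w.reverse, LK I k t := fun t ht => hw t (List.mem_reverse.1 ht)
  have hr' : ∀ t ∈ (w ++ xw f f').reverse, LK I k t := fun t ht => h.lk hw t (List.mem_reverse.1 ht)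
  have m := qb_wd h.pq hr' (qL u.1)
  simp only [bk_laV, wd_sv]
  refine ⟨_, _, _, _, vG_of h.pq h.q' (h.lk hw) (qL (qb_wd h.pq (h.lk hw') h.q').1) ?_, u.2, m.2,
    vG_of h.pq h.q (lk_xw h.l' h.l) m.1 ⟨?_, trivial⟩, rfl⟩
  · simp only [h.wd_eq hw', ← fb_amp]
    refine sg_fb h.pq h.j k1 (h.lk hw) (qL u.1).1 (by positivity) (fun z => (norm_amp _ _).trans
      (mul_le_mul (bL z) (wd_le' h.pq k1 h.n hw' hn' z) (norm_nonneg _) T0)) ?_
    gcongr
    simpa [xw] using hn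
  obtain ⟨W, a1, a2⟩ := exists_wO h.pq h.jo h.g2 h.two hr
  obtain ⟨W', b1, b2⟩ := exists_wO h.pq h.jo h.g2 h.two hw'
  have e := (fj_x h.pq h.jo h.l'.sbd h.l.sbd (a2 _ _ ((b2 _ _ h.j).op sL))
    (qb_wd h.pq hr (qL u.1)).1).unique (h.j'.right _)
  rw [List.reverse_append, Wrd81.wd_append, show (xw f f').reverse = xw f' f from rfl, e,
    sv_fb h.pq h.q'.1, sv_fb h.pq (sbd_sv h.l' h.q'.1)]
  refine h.j'.st (γ := fun z => fb (adjoint (W ∘L mO F.toPre L ∘L W')) _) (fun z => by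
    rw [fb_fb, ← h.symm.adj, ← ContinuousLinearMap.adjoint_comp]; rfl) fun z =>
      (norm_fb_le _ _).trans ?_
  have c1 : ‖W ∘L mO F.toPre L ∘L W'‖ ≤ k ^ n * (T * k ^ n) :=
    (W.opNorm_comp_le _).trans (mul_le_mul (a1.trans (pow_le_pow_right₀ k1 (by simpa using hn)))
      ((ContinuousLinearMap.opNorm_comp_le _ _).trans (mul_le_mul (jo_mul hL T0 bL).1
        (b1.trans (pow_le_pow_right₀ k1 hn')) (norm_nonneg _) T0)) (norm_nonneg _) (by positivity))
  rw [LinearIsometryEquiv.norm_map]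
  refine (mul_le_mul c1 (sv_le (t := .G) h.pq k1 trivial (sv_le h.pq k1 h.l' h.n') z) (norm_nonneg _)
    (by positivity)).trans (le_trans (le_of_eq (by ring)) (le_mul_of_one_le_right (by positivity) k1 :
      k ^ (n + 3) * (T * k ^ n) ≤ _) |>.trans_eq (by ring))

end BJ

variable (F) in
/-- quantitative hypotheses on the data of a seed -/
structure Un (d : Cy M) (φ : M → ℝ) (S : ℝ) (n : ℕ) : Prop where
  l4 : L4 F.toPre S
  pos : 0 < S
  one : 1 ≤ n
  cu : Cu F n φ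
  sep : ∀ x, d.f x ≠ 0 → 1 ≤ φ x
  sep' : ∀ x, d.f' x ≠ 0 → φ x ≤ 0
  f : LK I n (.mul d.f)
  f' : LK I n (.mul d.f')
  w : d.w.length ≤ n ∧ ∀ t ∈ d.w, LK I n t
  w' : d.w'.length ≤ n ∧ ∀ t ∈ d.w', LK I n t

theorem vj_lit : VJ F p (LJ F) := fun u a b _ =>
  ⟨_, lj_toH ⟨u, a, b, fun _ => rfl⟩, fun _ _ k => is_inner k.2 _⟩

theorem bf_lit (h : Pq F A p) (hG : JO F G (F.res A)) (hS : L4 F.toPre S) (S0 : 0 < S)
    (n1 : (1 : ℝ) ≤ n) (hφ : Cu F n φ) (hf : LK I n (.mul f)) (hf' : LK I n (.mul f'))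
    (h1 : ∀ x, f x ≠ 0 → 1 ≤ φ x) (h0 : ∀ x, f' x ≠ 0 → φ x ≤ 0) (hR : kB S n ≤ R) :
    BF F A p (LJ F) f f' φ R (bs F A p f f') ∧ FJ F (xJ F p G f f') (bs F A p f f') ∧
      QB F p (bs F A p f f') ∧ ∀ x, ‖bs F A p f f' x‖ ≤ kB S n := by
  have n0 : (0 : ℝ) < n := by linarith
  have k := isFld_bs h hφ n0 hf.1 hf'.sbd h1 h0
  have k' := isFld_cf h hφ n0 hf'.sbd h0
  have b := h.bs_kB hS S0 ⟨n1, hf.1.continuous, hf'.1.continuous, hf.2, hf'.2, φ, hφ, h1, h0⟩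
  have j := fj_bs h hG hf.sbd hf'.sbd k.1 ⟨_, b⟩
  refine ⟨⟨⟨_, k'.1, fun z => le_trans ?_ hR, fix_bs h k', k.2, fun x hx => hom_bs h hf'.sbd k' ?_
    (by_contra fun e => by linarith [h0 x e])⟩, h1, fun g σ a => ⟨_, Abel74.rs_res h.tame h.mc
      (hf'.sbd.smul (h.sbd.app a.1)), h.fix fun x => by rw [map_smul, h.pp],
      congrFun ((j.lj g).eq (jo_xJ h hG hf.sbd hf'.sbd g σ a))⟩⟩, j, ⟨⟨k.1.1, _, b⟩, fix_bs h k.1⟩, b⟩
  · have m1 := one_le_mS
    have q := h.bs_le (f := cf 8 (3 / 4) φ) wu_one hS S0 (hφ.cf (k := 3) (by norm_num) 0)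
      (hφ.cf (k := 3) (by norm_num) (1 / 3)) (by positivity) (cf_abs _ _) (cf_abs _ _)
      (fun x hx => by_contra fun e => hx (cf_zero (by norm_num) (h0 x e)))
      (fun x hx => cf_one (by
        have : ¬φ x ≤ 1 / 3 := fun e => hx (cf_zero (by norm_num) e)
        linarith [not_le.1 this]))
      (fun x hx => cf_one (by
        have : ¬φ x ≤ 3 / 4 := fun e => hx (cf_zero (by norm_num) e)
        linarith [not_le.1 this])) hf'.1.continuous (m := n ^ 2)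
      (fun x => by rw [mul_one]; exact sq_le_sq' (abs_le.1 (hf'.2 x)).1 (abs_le.1 (hf'.2 x)).2) z
    have k0 := kL_nonneg (N := 2 * (mS * 3) ^ 2 * n) S0.le (by positivity)
    refine (Real.le_sqrt_of_sq_le (q.trans ?_)).trans (le_add_of_nonneg_left (by linarith))
    gcongr 3 * (?_ * _)
    have := abs_le.1 ((cf_abs 8 (3 / 4) z : |cf 8 (3 / 4) φ z| ≤ 1).trans n1)
    exact sq_le_sq' this.1 this.2
  · filter_upwards [hφ.sm.continuous.continuousAt.eventually_const_lt hx] with y hy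
    exact cf_one (by linarith)

theorem sbd_tp {V : Type} [NormedAddCommGroup V] [InnerProductSpace ℝ V] [CompleteSpace V]
    (r : CL U (CL V V)) {a b : M → V} (ha : SBd I a) (hb : SBd I b) :
    SBd I fun x => tp r (a x) (b x) := ((SBd.const (tpL r)).app ha).app hb

/-- the constant of the literal values -/
def kR (S : ℝ) (n : ℕ) : ℝ := kB S n ^ (n + 3) * (2 * (kB S n ^ n * kB S n))

variable {lam : Type} [Fintype lam] {r : ℕ} {B : Base M ι lam} {Γ : Geo I M ι lam}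
  {c : Cfg M ι lam r} {d : Cy M}

/-- **LIT** -/
theorem lit (hB : B.OK I) (hT : ∃ C, Γ.F.Tame C) (H : c.m.OK I B) (hc : c.m.IsConn B Γ c.W)
    (u : Un Γ.F d φ S n) : ∃ v : VC Γ.F c d φ (kR S n), v.s = (d.sed Γ.F).s c ∧ SBd I v.s ∧
      ∀ l, SBd I l → v.A l ((d.sed Γ.F).sA c l) := by
  have h := pq_conn hB hT H hc
  obtain ⟨G, g2, sy, jo⟩ := exists_G h.tame.choose_spec h.mc
  obtain ⟨k2, kn⟩ := le_kB (S := S) n.cast_nonneg
  have k1 := one_le_two.trans k2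
  have n1 : (1 : ℝ) ≤ n := by exact_mod_cast u.one
  have r1 : kB S n ^ n * kB S n ≤ kR S n := (le_mul_of_one_le_left (by positivity)
    one_le_two).trans (le_mul_of_one_le_left (by positivity) (one_le_pow₀ k1))
  have r0 : kB S n ≤ kR S n := (le_mul_of_one_le_left (by positivity) (one_le_pow₀ k1)).trans r1
  obtain ⟨a1, a2, a3, a4⟩ := bf_lit h jo u.l4 u.pos n1 u.cu u.f u.f' u.sep u.sep' r0
  obtain ⟨b1, b2, b3, b4⟩ := bf_lit h jo u.l4 u.pos n1 u.cu.flip u.f' u.f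
    (fun x hx => by linarith [u.sep' x hx]) (fun x hx => by linarith [u.sep x hx]) r0
  have j : BJ Γ.F _ _ d.f d.f' (kB S n) G :=
    ⟨h, jo, sy, g2, k2, u.f.mono kn, u.f'.mono kn, a2, b2, a3, b3, a4, b4⟩
  have hw := fun t ht => (u.w.2 t ht).mono kn
  have hw' := fun t ht => (u.w'.2 t ht).mono kn
  have qa := qb_wd h (j.lk hw) b3
  have qb := qb_wd h (j.lk hw') b3
  let v : VC Γ.F c d φ (kR S n) := ⟨_, LJ Γ.F, _, _, _, _, vj_lit, a1, b1, qa.2, qb.2,
    j.st hw u.w.1 r1, j.st hw' u.w'.1 r1⟩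
  refine ⟨v, funext fun x => ?_, ?_, fun l hl => ?_⟩
  · exact congrArg (c.m.pg x) (congrArg₂ (tp _) (congrFun wd_sv.symm x) (congrFun wd_sv.symm x))
  · have e := h.sbd.app (sbd_tp (hr _ (adR (Fin c.m.N))) qa.1.1 qb.1.1)
    exact e
  obtain ⟨m, hm⟩ := hl.2
  have hb : ∀ x, ‖l x‖ ≤ ⨆ x, ‖l x‖ := le_ciSup ⟨m, by rintro _ ⟨x, rfl⟩; exact hm x⟩
  have T0 : 0 ≤ 2 * ⨆ x, ‖l x‖ := mul_nonneg zero_le_two (Real.iSup_nonneg fun _ => norm_nonneg _)
  have sL := ((SBd.const (adR (Fin c.m.N))).app (h.sbd.app hl)).1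
  have bL : ∀ x, ‖adR (Fin c.m.N) (c.m.pg x (l x))‖ ≤ 2 * ⨆ x, ‖l x‖ := fun x => (norm_adR _).trans
    (mul_le_mul_of_nonneg_left ((h.norm_le _ _).trans (hb x)) zero_le_two)
  have e1 := j.vgh (ρ := adR _) hw' u.w'.1 hw u.w.1 sL T0 bL fun x => pg_adR x _
  have e2 := j.vgh (ρ := adR _) hw u.w.1 hw' u.w'.1 sL T0 bL fun x => pg_adR x _
  refine ⟨_, _, _, fun L L0 hL => ?_, e1, e2, ?_⟩
  · rw [show kR S n * L = kB S n ^ (n + 3) * (2 * L * (kB S n ^ n * kB S n)) by rw [kR]; ring]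
    gcongr
    exact Real.iSup_le hL L0
  · rfl

theorem exists_un {C : ℕ → ℝ} (hT : F.Tame C) (hd : d.OK F) :
    ∃ φ S n, F.Cb φ ∧ Un F d φ S n := by
  obtain ⟨a, b, φ, ⟨D, c⟩, s, s'⟩ := hd.sep
  have z : ∀ {f : M → ℝ}, F.Cb f → ∀ᶠ n : ℕ in atTop, LK I n (.mul f) := fun h =>
    let ⟨m, hm⟩ := cb_bdd h
    (tendsto_natCast_atTop_atTop.eventually_ge_atTop m).mono fun _ hn =>
      ⟨cb_sm h, fun x => (hm x).trans hn⟩
  obtain ⟨n, h1, h2, h3, h4, h5, h6⟩ := ((eventually_ge_atTop 1).and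
    ((tendsto_natCast_atTop_atTop.eventually_ge_atTop
      (Fintype.card ι * (D 2 ^ 2 + (1 + |C 0|) * |D 2|) : ℝ)).and ((z a).and ((z b).and
      ((exists_llsz hd.w).and (exists_llsz hd.w')))))).exists
  exact ⟨φ, |C 0| + 1, n, ⟨D, c⟩, (l4_of_tame hT).mono (by linarith [le_abs_self (C 0)]),
    by positivity, h1, (cu_of_cbs hT c).mono h2, s, s', h3, h4,
    ⟨h5.1, fun t ht => lk_of (hd.w t ht) (h5.2 t ht)⟩,
    h6.1, fun t ht => lk_of (hd.w' t ht) (h6.2 t ht)⟩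

end Crest.Agent.X212.Cyl12
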