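import Crest.Agent.X212.Cyl12.Pul
import Crest.Agent.X212.Th31.Cux

/-!
# Row 212, CYC-PF (helper12): values of cyclic seeds are controlled sections
-/

set_option autoImplicit false
set_option linter.unusedSectionVars false
noncomputable section
open scoped Manifold ContDiff Topology InnerProductSpace
open MeasureTheory Set Function Filter

namespace Crest.Agent.X212.Cyl12
open An Dgr80 Cyc79 Cmp73
open Wz78 (nab lap SA pg_mem pg_of_mem)
open Th31 (CU cu_cur)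

section alg
variable {κ : Type} [Fintype κ] [DecidableEq κ] {K : Type} [NormedAddCommGroup K]
  [InnerProductSpace ℝ K] [CompleteSpace K]

theorem norm_amp_le : ‖(amp K : CL (En κ) _)‖ ≤ 1 :=
  ContinuousLinearMap.opNorm_le_bound₂ _ zero_le_one fun T v => by
    rw [one_mul]; exact norm_amp T v

theorem norm_hr_ad (ξ : HS κ) (v : Fm (κ × κ) K) : ‖amp K (adR κ ξ) v‖ ≤ 2 * ‖ξ‖ * ‖v‖ :=
  (norm_amp _ _).trans (mul_le_mul_of_nonneg_right (norm_adR ξ) (norm_nonneg _))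

theorem norm_hr : ‖hr K (adR κ)‖ ≤ 2 := ContinuousLinearMap.opNorm_le_bound₂ _ zero_le_two norm_hr_ad

theorem hr_adc (A : En κ) (ξ : HS κ) (v : Fm (κ × κ) K) : hr K (adR κ) (adc A ξ) v =
    amp K (adc A) (hr K (adR κ) ξ v) - hr K (adR κ) ξ (amp K (adc A) v) := by
  rw [hr_apply, hr_apply, amp_amp, amp_amp, ← _root_.sub_apply, ← map_sub, adR_apply, adR_apply,
    Wz78.opL_adc, Wz78.adc_lie]

variable {V U : Type} [NormedAddCommGroup V] [InnerProductSpace ℝ V] [CompleteSpace V]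
  [NormedAddCommGroup U] [InnerProductSpace ℝ U] [CompleteSpace U] {ρ : CL U (CL V V)}

theorem norm_tpL {C : ℝ} (h : ‖ρ‖ ≤ C) : ‖tpL ρ‖ ≤ C :=
  ContinuousLinearMap.opNorm_le_bound _ ((norm_nonneg _).trans h) fun v => by
    change ‖ContinuousLinearMap.adjoint (ρ.flip v)‖ ≤ _
    rw [LinearIsometryEquiv.norm_map]
    exact ρ.flip.le_of_opNorm_le (by rwa [ContinuousLinearMap.opNorm_flip]) v

theorem tp_par {A : CL V V} {B : CL U U} (kA : ∀ v w, ⟪A v, w⟫_ℝ = -⟪v, A w⟫_ℝ)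
    (kB : ∀ v w, ⟪B v, w⟫_ℝ = -⟪v, B w⟫_ℝ) (h : ∀ ξ v, ρ (B ξ) v = A (ρ ξ v) - ρ ξ (A v)) (v w : V) :
    B (tp ρ v w) = tp ρ (A v) w + tp ρ v (A w) := ext_inner_right ℝ fun ξ => by
  rw [kB, inner_add_left, inner_tp, inner_tp, inner_tp, kA, h, inner_sub_right]; ring

end alg

variable {E : Type} [NormedAddCommGroup E] [NormedSpace ℝ E] [FiniteDimensional ℝ E]
  [MeasurableSpace E] [BorelSpace E]
  {HM : Type} [TopologicalSpace HM] {I : ModelWithCorners ℝ E HM} [I.Boundaryless]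
  {E₀ : Type} [NormedAddCommGroup E₀] [NormedSpace ℝ E₀] [FiniteDimensional ℝ E₀]
  [MeasurableSpace E₀] [BorelSpace E₀]
  {H₀ : Type} [TopologicalSpace H₀] {I₀ : ModelWithCorners ℝ E₀ H₀} [I₀.Boundaryless]
  {M : Type} [TopologicalSpace M] [ChartedSpace H₀ M] [IsManifold I₀ ∞ M] [MeasurableSpace M]
  [T2Space M] [BorelSpace M] [SecondCountableTopology M]
  {ι lam : Type} [Fintype ι] [Fintype lam] {α : Type}
  {X : α → Type} [∀ n, TopologicalSpace (X n)] [∀ n, ChartedSpace HM (X n)]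
  [∀ n, IsManifold I ∞ (X n)] [∀ n, MeasurableSpace (X n)] [∀ n, T2Space (X n)]
  [∀ n, BorelSpace (X n)] [∀ n, SecondCountableTopology (X n)] {r : ℕ}

section one
variable {B : Base M ι lam} {G : Geo I₀ M ι lam} {b : Cfg M ι lam r} {K : Type}
  [NormedAddCommGroup K] [InnerProductSpace ℝ K] [CompleteSpace K] {s t : M → HV b K}

theorem fx_of (h : ∀ x g, ct g (s x) ∈ b.m.gS x) : Fx b s := fun x => ext_ct fun g => by
  rw [ct_amp, pg_of_mem (h x g)]

variable (H : b.m.OK I₀ B) (C : b.m.IsConn B G b.W)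
include C

theorem sm_WK (a : ι) : Sm I₀ (aA K (b.m.adW b.W) a) := sm_aA (fun a => (Wz78.con_adW C).sm a) a

theorem sk_WK (a : ι) (x : M) (v w : HV b K) :
    ⟪aA K (b.m.adW b.W) a x v, w⟫_ℝ = -⟪v, aA K (b.m.adW b.W) a x w⟫_ℝ :=
  skew_amp (Wz78.adW_skw C a x) v w

theorem nab_tp (hs : Sm I₀ s) (ht : Sm I₀ t) (a : ι) (x : M) :
    nab I₀ G.F.e (b.m.adW b.W) a (fun x => tp (hr K (adR _)) (s x) (t x)) x =
      tp (hr K (adR _)) (nab I₀ G.F.e (aA K (b.m.adW b.W)) a s x) (t x) +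
        tp (hr K (adR _)) (s x) (nab I₀ G.F.e (aA K (b.m.adW b.W)) a t x) := by
  have e := tp_par (sk_WK C a x) (Wz78.adW_skw C a x) (hr_adc (K := K) (b.W a x)) (s x) (t x)
  change nab I₀ G.F.e _ a (fun x => tpL _ (s x) (t x)) x = tpL _ _ _ + tpL _ _ _
  change _ = tpL _ _ _ + tpL _ _ _ at e
  simp only [nab, Sob92.dv_app (SA.clm (tpL (hr K (adR _))) (hs x)).md (SA.md (ht x)),
    Sob92.dv_clm (tpL (hr K (adR _))) (SA.md (hs x)), map_add, _root_.add_apply]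
  rw [← add_add_add_comm]
  exact congrArg (_ + ·) e

include H

theorem Fx.nab (q : Fx b s) (hs : Sm I₀ s) (a : ι) :
    Fx b (nab I₀ G.F.e (aA K (b.m.adW b.W)) a s) := fx_of fun x g => by
  rw [← ct_nab hs]
  exact Wz78.nab_mem_g H C a (sm_ct hs g x) fun y => ct_mem (q y) g

end one

variable {g : Gs I I₀ M ι lam X} {c : ∀ n, Cfg (X n) ι lam r} {K : α → Type}
  [∀ n, NormedAddCommGroup (K n)] [∀ n, InnerProductSpace ℝ (K n)] [∀ n, CompleteSpace (K n)]

variable (c K) in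
/-- the connections on the Hilbert fibres -/
abbrev WH : ∀ n, ι → X n → CL (HV (c n) (K n)) (HV (c n) (K n)) := fun n => aA (K n) (WA c n)

section gx
variable {B : ∀ n, Base (X n) ι lam} {G : ∀ n, Geo I (X n) ι lam} {F : Filter (Σ n, X n)}
  (h : Gx B G c F) {L : Sy ι X} {dw : ℕ} {σ σ' τ : ℕ → ℕ × ℕ} {s t : ∀ n, X n → HV (c n) (K n)}
include h

theorem sH (n : α) (a : ι) : Sm I (WH c K n a) := sm_WK (h.cn n) a

theorem wt_amp {C : Ctx I ι X} {T : ∀ n, X n → En (Fin (c n).m.N × Fin (c n).m.N)}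
    (hT : Wt C (fun n => hom (WA c n) (WA c n)) σ T) :
    Wt C (fun n => hom (WH c K n) (WH c K n)) σ fun n x => amp (K n) (T n x) :=
  Wt.map (T := fun n _ => amp (K n)) (K := 1) (fun n => sm_hom (sH h n) (sH h n))
    (fun _ => contMDiff_const) (fun _ _ => norm_amp_le)
    (fun n a x => ContinuousLinearMap.ext fun S => by
      rw [dv_cst, zero_add]
      change amp (K n) _ * amp (K n) S - amp (K n) S * amp (K n) _ - amp (K n) (_ * S - S * _) = 0
      rw [map_sub, amp_mul, amp_mul, sub_self]) hT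

theorem crv_H (hL : (gbs G c).Le (gfb G c F) L) (sm : ∀ n, Sm I (s n)) (hp : ∀ n, Fx (c n) (s n)) :
    Crv (gfb G c F) ((gfb G c F).cx L dw) (WH c K) s := by
  refine fun a a' => ⟨_, wt_amp h (h.wt_adc (h.wt_F hL (a, a'))), fun n v x => ?_⟩
  have key : ∀ (v : List ι) {u : X n → HV (c n) (K n)}, Sm I u → Fx (c n) u →
      Fx (c n) (Dw I (G n).F.e (WH c K n) v u) := by
    intro v
    induction v with
    | nil => exact fun _ h => h
    | cons a v ih =>
      exact fun hu hp => ih (sm_nab (Wz78.frm (G n).F).se (sH h n) hu a)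
        (hp.nab (h.ok n) (h.cn n) hu a)
  have e := curv_aA (K := K n) (F := (G n).F) (h.sA n) a a' x
  refine (congrArg (fun T : CL _ _ => T _) e).trans (ext_ct (K := K n) fun g => ?_)
  rw [ct_amp, ct_amp]
  exact Wz78.curv_adW_g (h.hB n) (h.hG n) (h.ok n) (h.cn n) a a' (ct_mem (key v (sm n) (hp n) x) g)

theorem wt_tp {C : Ctx I ι X} (hs : Wt C (WH c K) σ s) (ht : Wt C (WH c K) σ' t) (hc : Cn σ σ' τ) :
    Wt C (WA c) τ fun n x => tp (hr (K n) (adR _)) (s n x) (t n x) := by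
  have e := fun n a x => tp_par (ρ := hr (K n) (adR _)) (sk_WK (h.cn n) a x) (h.kA n a x) (hr_adc _)
  have r := Wt.bil (D := WA c) (β := fun n => tpL (hr (K n) (adR _))) h.sA
    (fun n => norm_tpL norm_hr) e hs ht hc
  exact r

end gx

variable (g c) in
/-- controlled fields on the Hilbert fibres -/
structure PK (s : ∀ n, X n → HV (c n) (K n)) : Prop where
  pf : ∀ x, g.Pf c x (WH c K) s
  bd : g.UB s
  fx : ∀ n, Fx (c n) (s n)

variable (g c) in
/-- convergent data of seeds -/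
structure CC (d : ∀ n, Cy (X n)) (φ : ∀ n, X n → ℝ) (R : α → ℝ) (d₀ : Cy M) : Prop where
  f : g.FC c (fun n => (d n).f) d₀.f
  f' : g.FC c (fun n => (d n).f') d₀.f'
  w : FL (g.cLa c) (fun n => (d n).w) fun _ => d₀.w
  w' : FL (g.cLa c) (fun n => (d n).w') fun _ => d₀.w'
  φ : ∃ φ₀, g.FC c φ φ₀
  R : ∃ R₀, ∀ᶠ n in (g.l : Filter α), R n ≤ R₀

theorem fl_xw {f f' : ∀ n, X n → ℝ} {f₀ f₀' : M → ℝ} (h : g.FC c f f₀) (h' : g.FC c f' f₀') :
    FL (g.cLa c) (fun n => xw (f n) (f' n)) fun _ => xw f₀ f₀' :=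
  .cons (.mul h.qs) (.cons .G (.cons (.mul h'.qs) .nil))

theorem fc_flip {φ : ∀ n, X n → ℝ} {φ₀ : M → ℝ} (h : g.FC c φ φ₀) :
    g.FC c (fun n x => 1 - φ n x) fun x => 1 - φ₀ x :=
  ⟨fun x => (Wt.cst (K := 1) (by simp)).sub (h.cb x), (Gs.UB.cst (t := fun _ _ => (1 : ℝ))
    fun _ _ => le_rfl).add' h.bd fun _ _ => norm_sub_le _ _, contMDiff_const.sub h.sm,
    (Cv.const 1).sub h.cv⟩

/-- open conditions at the limit hold near the approximating points -/
theorem fc_ev {φ : ∀ n, X n → ℝ} {φ₀ : M → ℝ} (h : g.FC c φ φ₀) {T : Set ℝ} (hT : IsOpen T) {x : M}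
    (hx : φ₀ x ∈ T) : ∀ᶠ q in g.F g.Pᶜ x, ∀ᶠ z in 𝓝 q.2, φ q.1 z ∈ T :=
  eventually_map.2 (ev_nF.2 ((((h.sm.continuous.continuousAt.eventually_mem
    (hT.mem_nhds hx)).filter_mono nhdsWithin_le_nhds).and self_mem_nhdsWithin).mono fun _ hy =>
      ((h.cv.tendsto hy.2).eventually_mem (hT.mem_nhds hy.1)).mono fun q hq =>
        ((h.cb x).sm q.1).continuous.continuousAt.eventually_mem (hT.mem_nhds hq)))

variable (k : g.Bk c) {s t u e b b' l' : ∀ n, X n → HV (c n) (K n)} {f f' φ : ∀ n, X n → ℝ}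
  {f₀ f₀' φ₀ : M → ℝ}
  {l : ∀ n, X n → (c n).m.A} {l₀ : ∀ b : Cfg M ι lam r, M → b.m.A} {R : α → ℝ}
  {J : ∀ n, K n → (X n → (c n).m.A) → Prop} {η : ∀ n, X n → Fm ι (c n).m.A}
  {w w₁ : ∀ n, List (La (X n))} {w' w₁' : Cfg M ι lam r → List (La M)}

include k

theorem pf_res {x : M} (sm : ∀ n, Sm I (u n)) (bd : g.UB u) (fx : ∀ n, Fx (c n) (u n))
    (e : ∀ n x, u n x + lap I (g.G n).F.e (g.G n).F.dv (WH c K n) (u n) x = s n x)
    (h : g.Pf c x (WH c K) s) : g.Pf c x (WH c K) u :=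
  have a := k.gx x
  (PF.res (g := fun n => (g.G n).F.dv) a.gb.c a.gb.dv (fun n => sk_WK (a.cn n)) sm (bd.bd _ x)
    (fun _ _ _ => crv_H a Sy.Le.rfl sm fx) e h.pL).wP

namespace PK

theorem vh {t : ∀ n, La (X n)} {t' : Cfg M ι lam r → La M} (ht : g.cLa c t t') (h : PK g c s)
    (e : ∀ n, vH (K n) (g.G n).F (WA c n) (c n).m.pg (t n) (s n) (u n)) : PK g c u := by
  have fx := fun n => fx_vH (h.fx n) (e n)
  cases ht with
  | mul hf =>
    obtain rfl : u = _ := funext e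
    exact ⟨fun x => (hf.pf x).smul (h.pf x), hf.bd.mul h.bd fun _ _ => (norm_smul _ _).le, fx⟩
  | G =>
    have bd : g.UB u := h.bd.imp fun C hC => hC.mono fun n hn => (e n).1.le C hn
    exact ⟨fun x => pf_res k (fun n => (e n).1.sm) bd fx (fun n => (e n).1.eq) (h.pf x), bd, fx⟩

theorem vw (hw : FL (g.cLa c) w w') (h : PK g c s)
    (e : ∀ n, VW (vH (K n) (g.G n).F (WA c n) (c n).m.pg) (s n) (w n) (u n)) : PK g c u :=
  FL.vw (σ' := fun _ => Unit) (op := fun _ _ _ => ()) (Q := fun s _ => PK g c s) (s₀' := fun _ => ())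
    h (fun _ _ _ _ _ a b e => b.vh k a e) hw e

theorem ad (hl : g.QA c l l₀) (h : PK g c s) :
    PK g c fun n x => amp (K n) (adR _ ((c n).m.pg x (l n x))) (s n x) := by
  refine ⟨fun x => PF.app (sH (k.gx x)) (((hl.pf x).one fun _ _ _ _ _ a =>
    wt_amp (k.gx x) ((k.gx x).wt_adc a)).congr fun n y => by rw [pg_of_mem (hl.p n y)]; rfl) (h.pf x),
    (hl.bd.add hl.bd).mul h.bd fun n x => (norm_hr_ad _ _).trans_eq ?_, fun n => (h.fx n).ad _⟩
  rw [pg_of_mem (hl.p n x), ← two_smul ℝ, norm_smul, Real.norm_two]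

theorem ct {x : M} (h : g.Pf c x (WH c K) s) {a : ∀ n, K n} {C : ℝ}
    (ha : ∀ᶠ n in (g.l : Filter α), ‖a n‖ ≤ C) : g.Pf c x (WA c) fun n y => ct (a n) (s n y) :=
  h.cb (T := fun n _ => Cyc79.ct (a n)) (k.gx x).sA (Wt.par
    (fun n => sm_hom (sH (k.gx x) n) ((k.gx x).sA n)) (fun _ => contMDiff_const)
    (Gs.ev_F (p := fun n _ => ‖(Cyc79.ct (a n) : CL (HV (c n) (K n)) _)‖ ≤ C) (ha.mono fun n hn _ =>
      (ContinuousLinearMap.opNorm_le_bound _ (norm_nonneg _) (norm_ct _)).trans hn))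
    fun n i y => by
      rw [nab, dv_cst, zero_add, hom_apply]
      exact sub_eq_zero.2 (ContinuousLinearMap.ext fun v => (ct_amp (a n) (WA c n i y) v).symm))
    fun _ => sP_mono

/-- the base fields -/
theorem bf (hf : g.FC c f f₀) (hφ : g.FC c φ φ₀) (hR : ∃ R₀, ∀ᶠ n in (g.l : Filter α), R n ≤ R₀)
    (h : ∀ n, BF (g.G n).F (WA c n) (c n).m.pg (J n) (f n) (f' n) (φ n) (R n) (b n)) : PK g c b := by
  choose w a1 a2 a3 a4 a5 using fun n => (h n).loc
  have fx := fun n => (h n).fx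
  obtain rfl : b = fun n x => f n x • w n x := funext fun n => funext (a4 n)
  have bd : g.UB w := hR.imp fun _ h => h.mono fun n hn x => (a2 n x).trans hn
  refine ⟨fun x => ?_, hf.bd.mul bd fun _ _ => (norm_smul _ _).le, fx⟩
  have z := PF.zero (b := g.fb c (g.F g.Pᶜ x)) (L₀ := g.bs c) (σ := sP) (sH (K := K) (k.gx x))
  rcases lt_or_ge (7 / 8) (φ₀ x) with hx | hx
  · refine PF.cs (hf.cb x) (pf_res k a1 bd a3 (fun _ _ => rfl) (z.congr_ev
      (fun n => (a1 n).add (Wz78.sm_lap (sH (k.gx x) n) (a1 n))) ?_)) fun _ => sP_mono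
    exact (fc_ev hφ isOpen_Ioi hx).mono fun q hq => hq.mono fun y hy => a5 _ y hy
  · refine z.congr_ev (fun n => ((hf.cb x).sm n).smul (a1 n))
      ((fc_ev hφ (isOpen_Iio (a := 1)) (hx.trans_lt (by norm_num))).mono fun q hq =>
        hq.mono fun y hy => ?_)
    beta_reduce
    rw [show f q.1 y = 0 from by_contra fun e => ((h _).sep y e).not_gt hy, zero_smul]

theorem cl (h : PK g c s) (h' : PK g c t)
    (e : ∀ n, vH (K n) (g.G n).F (WA c n) (c n).m.pg .G (s n) (u n))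
    (e' : ∀ n, vH (K n) (g.G n).F (WA c n) (c n).m.pg .G (t n) (l' n)) :
    Th31.CL g c fun n => cur (g.G n).F (WH c K n) (hr (K n) (adR _)) (u n) (l' n) := fun x => by
  have a := k.gx x
  have pr : ∀ n i y, ∑ j, (g.G n).F.P i j y • WH c K n j y = WH c K n i y := fun n i y => by
    simp only [aA, ← map_smul, ← map_sum, (a.hG n).P]
    exact congrArg _ ((Wz78.con_adW (a.cn n)).proj i y)
  have s1 := fun n => (e n).1.sm
  have s2 := fun n => (e' n).1.sm
  have r := cu_cur (b := g.fb c (g.F g.Pᶜ x)) (L₀ := g.bs c) (A := WH c K) (B := WA c)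
    (F := fun n => (g.G n).F) (ρ := fun n => hr (K n) (adR _)) (g := fun n => (g.G n).F.dv)
    (fun _ => rfl) a.gb.c a.gb.dv a.sA (fun n => sk_WK (a.cn n)) a.kA pr zero_le_two
    (fun _ => norm_hr) (fun n a x => hr_adc (K := K n) _) s1 s2 ((h.vh k .G e).bd.bd _ x)
    ((h'.vh k .G e').bd.bd _ x) (fun _ _ _ => crv_H a Sy.Le.rfl s1 fun n => (e n).2)
    (fun _ _ _ => crv_H a Sy.Le.rfl s2 fun n => (e' n).2)
    (fun n => (e n).1.eq) (fun n => (e' n).1.eq) (h.pf x).pL (h'.pf x).pL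
  exact r

theorem vg (hw : FL (g.cLa c) w w') (h : PK g c s) : ∀ {t η}, PK g c t →
    (∀ n, vG (g.G n).F (WA c n) (c n).m.pg (J n) (adR _) (R n) (e n) (s n) (w n) (t n) (η n)) →
      Th31.CL g c η := by
  induction hw with
  | nil => exact fun _ e => funext e ▸ fun x => .zero (k.gx x).sA
  | cons a hw ih =>
    intro t η ht e
    cases a with
    | mul hf => exact ih (ht.vh k (.mul hf) fun _ => rfl) e
    | G =>
      choose u₀ u l' η₀ a1 a2 a3 a4 a5 a6 using e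
      obtain rfl : η = _ := funext a6
      exact fun x => (ih (ht.vh k .G a3) a5 x).sub (cl k (h.vw k hw a1) ht a2 a3 x)

theorem vgh (hf : g.FC c f f₀) (hf' : g.FC c f' f₀') (hw : FL (g.cLa c) w w')
    (hw₁ : FL (g.cLa c) w₁ w₁') (hb : PK g c b) (hb' : PK g c b') (hs : PK g c s) (hl : g.QA c l l₀)
    (e : ∀ n, vgh (g.G n).F (WA c n) (c n).m.pg (J n) (adR _) (R n) (f n) (f' n) (b n) (b' n) (w n)
      (w₁ n) (fun x => adR _ ((c n).m.pg x (l n x))) (s n) (η n)) : Th31.CL g c η := by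
  choose η₁ η₂ u m a1 a2 a3 a4 a5 using e
  obtain rfl : η = _ := funext a5
  have x1 := fl_append hw (fl_xw hf hf')
  exact fun x => (vg k x1 hb' (hs.ad k hl) a1 x).add (vg k (fl_xw hf' hf) hb
    (((hb.vw k hw₁ a2).ad k hl).vw k (fl_reverse x1) a3) a4 x)

end PK

variable {d : ∀ n, Cy (X n)} {d₀ : Cy M} (h : CC g c d φ R d₀)
  (v : ∀ n, VC (g.G n).F (c n) (d n) (φ n) (R n))
include h

theorem CC.pb : PK g c fun n => (v n).b :=
  let ⟨_, a⟩ := h.φ; .bf k h.f a h.R fun n => (v n).bf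

theorem CC.pb' : PK g c fun n => (v n).b' :=
  let ⟨_, a⟩ := h.φ; .bf k h.f' (fc_flip a) h.R fun n => (v n).bf'

theorem CC.al : PK g c fun n => (v n).al :=
  (h.pb' k v).vw k (fl_append h.w (fl_xw h.f h.f')) fun n => (v n).wa

theorem CC.be : PK g c fun n => (v n).be :=
  (h.pb' k v).vw k (fl_append h.w' (fl_xw h.f h.f')) fun n => (v n).wb

/-- **CYC-PF** -/
theorem qc (hl : g.QA c l l₀) (hη : ∀ n, (v n).A (l n) (η n)) : Th31.CL g c η := by
  choose R' η₁ η₂ a1 a2 a3 a4 using hη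
  obtain rfl : η = _ := funext a4
  exact fun x => (PK.vgh k h.f h.f' h.w' h.w (h.pb k v) (h.pb' k v) (h.al k v) hl a2 x).sub
    (PK.vgh k h.f h.f' h.w h.w' (h.pb k v) (h.pb' k v) (h.be k v) hl a3 x)

end Crest.Agent.X212.Cyl12
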