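import Crest.Agent.X212.Cyl12.Val
import Crest.Agent.X212.Shi84.Pul
import Crest.Agent.X212.Eqv71.Hil

/-!
# Row 212, CYC-LIM (helper12): PUL, values of cyclic seeds pull back
-/

set_option autoImplicit false
set_option linter.unusedSectionVars false
noncomputable section
open scoped Manifold ContDiff Topology InnerProductSpace
open MeasureTheory Set Function Filter

namespace Crest.Agent.X212.Cyl12
open An Dgr80 Cyc79 Eqv71 Shi84
open Wz78 (nab lap SA pg_mem pg_of_mem)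
open Cmp73 (VW Rs)
open ContinuousLinearMap (adjoint)

variable {E : Type} [NormedAddCommGroup E] [NormedSpace ℝ E] [FiniteDimensional ℝ E]
  [MeasurableSpace E] [BorelSpace E]
  {HM : Type} [TopologicalSpace HM] {I : ModelWithCorners ℝ E HM} [I.Boundaryless]
  {M : Type} [TopologicalSpace M] [ChartedSpace HM M] [IsManifold I ∞ M]
  [MeasurableSpace M] [BorelSpace M] [T2Space M] [SecondCountableTopology M]
  {ι : Type} [Fintype ι] {lam : Type} [Fintype lam]
  {E' : Type} [NormedAddCommGroup E'] [NormedSpace ℝ E'] [FiniteDimensional ℝ E']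
  [MeasurableSpace E'] [BorelSpace E']
  {HM' : Type} [TopologicalSpace HM'] {I' : ModelWithCorners ℝ E' HM'} [I'.Boundaryless]
  {M' : Type} [TopologicalSpace M'] [ChartedSpace HM' M'] [IsManifold I' ∞ M']
  [MeasurableSpace M'] [BorelSpace M'] [T2Space M'] [SecondCountableTopology M']
  {ι' : Type} [Fintype ι'] {lam' : Type} [Fintype lam']
  {B : Base M ι lam} {G : Geo I M ι lam} {B' : Base M' ι' lam'} {G' : Geo I' M' ι' lam'}
  {O' : Set M'} {φ : M → M'} {ψ : M' → M} {U : M → ι' → ι → ℝ} {v : M → CL (Eu lam) (Eu lam')}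
  {r : ℕ} {c : Cfg M ι lam r} {y : Cfg M' ι' lam' r} {u : M → CL c.m.V y.m.V}
  {K : Type} [NormedAddCommGroup K] [InnerProductSpace ℝ K] [CompleteSpace K]

/-- the Hilbert fibre -/
abbrev HV {M ι lam : Type} [Fintype ι] [Fintype lam] (c : Cfg M ι lam r) (K : Type) : Type :=
  Fm (Fin c.m.N × Fin c.m.N) K

variable (φ u) in
/-- pull-back of fields -/
abbrev pH (s : M' → HV y K) : M → HV c K := fun x =>
  am2 (ContinuousLinearMap.id ℝ K) (cj (trn (u x))) (s (φ x))

variable (φ u) in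
/-- pull-back of the relation -/
def pJ (J : K → (M' → y.m.A) → Prop) (h : K) (σ : M → c.m.A) : Prop := ∃ σ', J h σ' ∧ σ = pA φ u σ'

variable (φ U u) in
/-- pull-back of one-forms -/
abbrev p1 (s : M' → Fm ι' y.m.A) : M → Fm ι c.m.A := fun x =>
  ridx (fun a b => U x b a) (cj (trn (u x))) (s (φ x))

variable (y) in
/-- fields with values in `g ⊗ K` -/
abbrev Fx (s : M' → HV y K) : Prop := ∀ z, amp K (y.m.pg z) (s z) = s z

theorem ct_id {κ κ' : Type} [Fintype κ] [DecidableEq κ] [Fintype κ'] [DecidableEq κ']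
    (S : CL (Eu κ) (Eu κ')) (h : K) (w : Fm κ K) :
    ct h (am2 (ContinuousLinearMap.id ℝ K) S w) = S (ct h w) := by
  rw [ct_am2, ContinuousLinearMap.adjoint_id]; rfl

theorem ct_mem {z : M'} {a : HV y K} (h : amp K (y.m.pg z) a = a) (g : K) : ct g a ∈ y.m.gS z := by
  rw [← h, ct_amp]; exact pg_mem z _

theorem Fx.ad {s : M' → HV y K} (h : Fx y s) (l : M' → y.m.A) :
    Fx y fun z => amp K (adR _ (y.m.pg z (l z))) (s z) := fun z => by
  beta_reduce
  rw [← h z, amp_amp, amp_amp, amp_amp, mul_assoc, pg_adR]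

theorem fx_vH {F : Fr I' M' ι'} {t : La M'} {s a : M' → HV y K} (q : Fx y s)
    (h : vH K F (y.m.adW y.W) y.m.pg t s a) : Fx y a := by
  cases t with
  | mul f => obtain rfl := h; exact fun z => (map_smul _ _ _).trans (congrArg _ (q z))
  | G => exact h.2

theorem BF.fx {F : Fr I' M' ι'} {J : K → (M' → y.m.A) → Prop} {f f' φ : M' → ℝ} {R : ℝ}
    {b : M' → HV y K} (h : BF F (y.m.adW y.W) y.m.pg J f f' φ R b) : Fx y b := fun z => by
  obtain ⟨w, -, -, a, e, -⟩ := h.loc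
  rw [e, map_smul, a]

section
variable (k : PB B G B' G' O' φ ψ U v c y u) {J : K → (M' → y.m.A) → Prop} {s a l e : M' → HV y K}
  {R : ℝ}
include k

theorem it_pH : IT G' B I O' ψ (fun y a b => U (ψ y) b a) (aA K (y.m.adW y.W)) (aA K (c.m.adW c.W))
    fun z => am2 (ContinuousLinearMap.id ℝ K) (cj (trn (u (ψ z)))) :=
  (k.lm.symm k.kg.inv).it_am2 ContinuousLinearMap.norm_id_le

theorem pg_cj (x : M) (ξ : y.m.A) :
    c.m.pg x (cj (trn (u x)) ξ) = cj (trn (u x)) (y.m.pg (φ x) ξ) :=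
  (k.me x).pg (k.be x) k.lm.hB' k.lm.hB k.lm.ok' k.lm.ok ξ

theorem cj_cj' {x : M} {ξ : y.m.A} (h : ξ ∈ y.m.gS (φ x)) : cj (u x) (cj (trn (u x)) ξ) = ξ := by
  simpa only [trn_trn] using (k.me x).trn_cj h

theorem ad_cj {x : M} {η : y.m.A} (h : η ∈ y.m.gS (φ x)) (ξ : y.m.A) :
    cj (trn (u x)) (adR _ ξ η) = adR _ (cj (trn (u x)) ξ) (cj (trn (u x)) η) := by
  rw [adR_apply, adR_apply, ← k.lm.rr_ad (mem_univ x)
    (ME.cj_p ((k.me x).cj_mem (k.be x) k.lm.ok' k.lm.ok h)), cj_cj' k h]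

theorem fx_pH (q : Fx y s) : Fx c (pH φ u s) := fun x => ext_ct fun g => by
  rw [ct_amp, ct_id, pg_cj k, pg_of_mem (ct_mem (q _) g)]

theorem ad_pH (q : Fx y s) (l : M' → y.m.A) :
    pH φ u (fun z => amp K (adR _ (y.m.pg z (l z))) (s z)) =
      fun x => amp K (adR _ (c.m.pg x (pA φ u l x))) (pH φ u s x) :=
  funext fun x => ext_ct fun g => by
    rw [ct_id, ct_amp, ct_amp, ct_id, pg_cj k, ad_cj k (ct_mem (q _) g)]

theorem tp_pH {x : M} {a : HV y K} (q : amp K (y.m.pg (φ x)) a = a) (b : HV y K) :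
    tp (hr K (adR _)) (am2 (ContinuousLinearMap.id ℝ K) (cj (trn (u x))) a)
      (am2 (ContinuousLinearMap.id ℝ K) (cj (trn (u x))) b) =
      cj (trn (u x)) (tp (hr K (adR _)) a b) := ext_inner_right ℝ fun ξ => by
  rw [inner_tp, inner_cj, inner_tp, ← ContinuousLinearMap.adjoint_inner_right, adj_am2]
  refine congrArg _ (ext_ct fun g => ?_)
  have := (k.lm.symm k.kg.inv).rr_ad (k.kg.inv.maps (mem_univ x))
    (ME.cj_p (ct_mem q g)) ξ
  rw [k.kg.inv.linv x trivial] at this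
  rw [ContinuousLinearMap.adjoint_id, ct_id, hr_apply, hr_apply, ct_amp, ct_amp, ct_id,
    show trn (cj (trn (u x))) = _ from adj_cj _, adR_apply, adR_apply, this]

theorem sm_pH (h : Sm I' s) : Sm I (pH φ u s) :=
  pul_sm (T := fun x => am2 (ContinuousLinearMap.id ℝ K) (cj (trn (u x)))) k.kg (it_pH k) h

theorem nab_pH (h : Sm I' s) (a : ι) (x : M) : nab I G.F.e (aA K (c.m.adW c.W)) a (pH φ u s) x =
    ∑ b, U x b a • am2 (ContinuousLinearMap.id ℝ K) (cj (trn (u x)))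
      (nab I' G'.F.e (aA K (y.m.adW y.W)) b s (φ x)) := by
  have hx := k.kg.inv.maps (mem_univ x)
  have t := it_pH (K := K) k
  simpa only [k.kg.inv.linv x trivial] using k.kg.symm.toLG.nab hx ⟨fun a z => t.mc'.sm a z, t.pj⟩
    (t.sT _ hx) (t.it _ hx) (h _) (sm_pH k h _) (Eventually.mono (k.kg.inv.opn'.mem_nhds hx)
      fun z hz => by rw [pH, k.kg.inv.rinv z hz]) a

theorem cur_pH (hs : Sm I' s) (qs : Fx y s) (hl : Sm I' l) (ql : Fx y l) (x : M) :
    cur G.F (aA K (c.m.adW c.W)) (hr K (adR _)) (pH φ u s) (pH φ u l) x =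
      p1 φ U u (cur G'.F (aA K (y.m.adW y.W)) (hr K (adR _)) s l) x := PiLp.ext fun b => by
  have tl : ∀ (a : HV c K) (f : ι' → HV c K), tp (hr K (adR _)) a (∑ i, U x i b • f i) =
      ∑ i, U x i b • tp (hr K (adR (Fin c.m.N))) a (f i) := fun a f => by
    simp only [tp, map_sum, map_smul]
  simp only [cur, ridx_apply, nab_pH k hs, nab_pH k hl, tl, tp_pH k (qs _), tp_pH k (ql _), map_add,
    smul_add, Finset.sum_add_distrib]

theorem vH_pH {t : La M} {t' : La M'} (ht : LaR univ φ t t') (q : Fx y s)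
    (h : vH K G'.F (y.m.adW y.W) y.m.pg t' s a) :
    vH K G.F (c.m.adW c.W) c.m.pg t (pH φ u s) (pH φ u a) := by
  cases ht with
  | mul hf =>
    obtain rfl := h
    exact funext fun x => by simp only [map_smul, ← hf (mem_univ x)]; rfl
  | G =>
    refine ⟨pul_rs (T := fun x => am2 (ContinuousLinearMap.id ℝ K) (cj (trn (u x)))) k.kg (it_pH k)
      k.dn (fun x => le_trans (le_of_eq (congrArg _ (ext_ct fun g => ?_)))
        ((k.lm.it_am2 (R := ContinuousLinearMap.id ℝ K) ContinuousLinearMap.norm_id_le).nT x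
          trivial _)) h.1, fx_pH k h.2⟩
    rw [ct_id, ct_id, cj_cj' k (ct_mem (q _) g)]

theorem vw_pH {w : List (La M)} {w' : List (La M')} (hw : List.Forall₂ (LaR univ φ) w w') (q : Fx y s)
    (h : VW (vH K G'.F (y.m.adW y.W) y.m.pg) s w' a) :
    Fx y a ∧ VW (vH K G.F (c.m.adW c.W) c.m.pg) (pH φ u s) w (pH φ u a) :=
  vw_pul (st' := vH K G'.F (y.m.adW y.W) y.m.pg) (f := pH φ u) (p := fun _ => True) (q := Fx y) q
    (fun _ _ _ _ ht _ q h => ⟨fx_vH q h, vH_pH k ht q h⟩) hw (fun _ _ => trivial) h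

theorem st_pH (h : St J R e a) : St (pJ φ u J) R (pH φ u e) (pH φ u a) := fun z w hw => by
  obtain ⟨g, h1, h2⟩ := h (φ z) (cj (u z) w) ((k.lm.it_ad.nT z trivial w).trans hw)
  have q : dot (pH φ u a z) w = dot (a (φ z)) (cj (u z) w) := ext_inner_left ℝ fun g => by
    rw [inner_dot, inner_dot, ct_id, inner_cj, trn_trn]
  rw [q]
  exact ⟨g, h1, _, h2, funext fun x => ct_id (cj (trn (u x))) g (e (φ x))⟩

theorem vG_pH (qs : Fx y s) {w : List (La M)} {w' : List (La M')}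
    (hw : List.Forall₂ (LaR univ φ) w w') : ∀ {l : M' → HV y K} {η : M' → Fm ι' y.m.A}, Fx y l →
      vG G'.F (y.m.adW y.W) y.m.pg J (adR _) R e s w' l η →
      vG G.F (c.m.adW c.W) c.m.pg (pJ φ u J) (adR _) R (pH φ u e) (pH φ u s) w (pH φ u l)
        (p1 φ U u η) := by
  induction hw with
  | nil => exact fun _ h => by obtain rfl := h; exact funext fun x => map_zero _
  | cons ht hw ih =>
    intro l η q h
    cases ht with
    | @mul f f' hf =>
      have := ih (fx_vH (F := G'.F) (t := .mul f') q rfl) h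
      rwa [show pH φ u (fun z => f' z • l z) = fun x => f x • pH φ u l x from
        vH_pH k (.mul hf) q rfl] at this
    | G =>
      obtain ⟨u₀, u₁, l', η₀, a1, a2, a3, a4, a5, rfl⟩ := h
      have b := vw_pH k hw qs a1
      exact ⟨_, _, _, _, b.2, vH_pH k .G b.1 a2, vH_pH k .G q a3, st_pH k a4, ih a3.2 a5,
        funext fun x => by rw [cur_pH k a2.1.sm a2.2 a3.1.sm a3.2, p1, map_sub]⟩

theorem vgh_pH {f f' : M → ℝ} {g g' : M' → ℝ} (hf : FR univ φ f g) (hf' : FR univ φ f' g')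
    {w w' : List (La M)} {z z' : List (La M')} (hw : List.Forall₂ (LaR univ φ) w z)
    (hw' : List.Forall₂ (LaR univ φ) w' z') {b b' : M' → HV y K} (q : Fx y b) (q' : Fx y b')
    (qa : Fx y a) {l : M' → y.m.A} {η : M' → Fm ι' y.m.A}
    (h : vgh G'.F (y.m.adW y.W) y.m.pg J (adR _) R g g' b b' z z'
      (fun x => adR _ (y.m.pg x (l x))) a η) :
    vgh G.F (c.m.adW c.W) c.m.pg (pJ φ u J) (adR _) R f f' (pH φ u b) (pH φ u b') w w'
      (fun x => adR _ (c.m.pg x (pA φ u l x))) (pH φ u a) (p1 φ U u η) := by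
  obtain ⟨η₁, η₂, s, m, a1, a2, a3, a4, rfl⟩ := h
  have x1 := List.rel_append hw (laR_xw hf hf')
  have b2 := vw_pH k hw' q a2
  have b3 := vw_pH k (List.rel_reverse x1) (b2.1.ad l) a3
  exact ⟨_, _, _, _, ad_pH k qa l ▸ vG_pH k q' x1 (qa.ad l) a1, b2.2, ad_pH k b2.1 l ▸ b3.2,
    vG_pH k q (laR_xw hf' hf) b3.1 a4, funext fun x => map_add _ _ _⟩

theorem bf_pH {f f' : M → ℝ} {g g' χ : M' → ℝ} (hf : FR univ φ f g) (hf' : FR univ φ f' g')
    {b : M' → HV y K} (h : BF G'.F (y.m.adW y.W) y.m.pg J g g' χ R b) :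
    BF G.F (c.m.adW c.W) c.m.pg (pJ φ u J) f f' (fun x => χ (φ x)) R (pH φ u b) := by
  obtain rfl : g ∘ φ = f := (eqOn_univ _ _).1 hf
  obtain rfl : g' ∘ φ = f' := (eqOn_univ _ _).1 hf'
  obtain ⟨w, a1, a2, a3, a4, a5⟩ := h.loc
  refine ⟨⟨pH φ u w, sm_pH k a1, fun x => (pul_le (T := fun x => am2 (ContinuousLinearMap.id ℝ K)
    (cj (trn (u x)))) k.kg (it_pH k) x _).trans (a2 _), fx_pH k a3,
    fun x => by rw [pH, a4, map_smul]; rfl, fun x hx => ?_⟩, fun x => h.sep _, ?_⟩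
  · rw [pul_eq (T := fun x => am2 (ContinuousLinearMap.id ℝ K) (cj (trn (u x)))) k.kg (it_pH k) a1
      (fun _ => rfl) x, a5 _ hx, map_zero]
  · rintro g₀ _ ⟨σ, j, rfl⟩
    obtain ⟨s, b1, b2, b3⟩ := h.wk g₀ σ j
    refine ⟨pA φ u s, ?_, fun x => by rw [pg_cj k, b2], fun x => by rw [ct_id, b3, map_smul]; rfl⟩
    have := pul_rs (T := fun x => cj (trn (u x))) (s := fun z => g' z • y.m.pg z (σ z)) k.kg
      (k.lm.symm k.kg.inv).it_ad k.dn
      (fun x => (k.nA (Submodule.smul_mem _ (g' (φ x)) (pg_mem (φ x) (σ (φ x))))).ge) b1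
    simp only [map_smul, ← pg_cj k] at this
    exact this

theorem vj_pH (h : VJ G'.F y.m.pg J) : VJ G.F c.m.pg (pJ φ u J) := fun t t1 t2 t3 => by
  have i := k.kg.inv
  have hK : IsCompact (φ '' tsupport t) := t2.isCompact.image_of_continuousOn
    fun x _ => (k.kg.rot.sφ x trivial).continuousAt.continuousWithinAt
  let w := O'.indicator fun z => cj (u (ψ z)) (t (ψ z))
  have w0 : ∀ z ∉ φ '' tsupport t, w z = 0 := fun z hz => indicator_apply_eq_zero.2 fun h' => by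
    rw [image_eq_zero_of_notMem_tsupport fun e => hz ⟨_, e, i.rinv z h'⟩, map_zero]
  have w1 : ∀ x, w (φ x) = cj (u x) (t x) := fun x => by
    simp only [w, indicator_of_mem (i.maps (mem_univ x)), i.linv x trivial]
  have m : ∀ x, t x ∈ c.m.gS x := fun x => t3 x ▸ pg_mem x _
  obtain ⟨g, g1, g2⟩ := h w (fun z => by
    by_cases hz : z ∈ O'
    · exact (i.sa hz (f := fun x => cj (u x) (t x)) ((k.lm.it_ad.sT _ trivial).app
        (t1 _))).congr_of_eventuallyEq (ind_ev i.opn' hz _)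
    · refine (contMDiffAt_const (c := 0)).congr_of_eventuallyEq ?_
      filter_upwards [hK.isClosed.isOpen_compl.mem_nhds
        (by rintro ⟨x, -, rfl⟩; exact hz (i.maps trivial))] with z hz using w0 z hz)
    (HasCompactSupport.intro hK w0) fun z => by
      by_cases hz : z ∈ O'
      · obtain ⟨x, -, rfl⟩ := i.surj hz
        rw [w1, pg_of_mem ((k.lm.me x trivial).cj_mem (k.lm.be x trivial) k.lm.ok k.lm.ok' (m x))]
      · simp only [w, indicator_of_notMem hz, map_zero]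
  refine ⟨g, ⟨w, g1, funext fun x => by rw [pA, w1, (k.lm.me x trivial).trn_cj (m x)]⟩, ?_⟩
  rintro g' _ ⟨σ, j, rfl⟩
  rw [g2 g' σ j]
  exact k.kg.integral_off (fun x _ => by rw [w1, inner_cj]) (fun x hx => absurd trivial hx)
    fun z hz => by simp only [w, indicator_of_notMem hz, inner_zero_left]

end

/-- **PUL** -/
theorem pul (k : PB B G B' G' O' φ ψ U v c y u) {d : Cy M} {d' : Cy M'} (hd : CyR univ univ φ d d')
    {χ : M' → ℝ} {R : ℝ} (a : VC G'.F y d' χ R) : ∃ b : VC G.F c d (fun x => χ (φ x)) R,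
      b.s = pA φ u a.s ∧ ∀ l η, Continuous l → (∀ z, l z ∈ y.m.gS z) → a.A l η →
        b.A (pA φ u l) (p1 φ U u η) := by
  have x1 := laR_xw hd.f hd.f'
  have qa := vw_pH k (List.rel_append hd.w x1) a.bf'.fx a.wa
  have qb := vw_pH k (List.rel_append hd.w' x1) a.bf'.fx a.wb
  let b : VC G.F c d (fun x => χ (φ x)) R := ⟨a.K, pJ φ u a.J, _, _, _, _, vj_pH k a.vj,
    bf_pH k hd.f hd.f' a.bf, bf_pH k hd.f' hd.f a.bf', qa.2, qb.2, st_pH k a.sa, st_pH k a.sb⟩
  refine ⟨b, funext fun x => (congrArg _ (tp_pH k (qa.1 _) _)).trans (pg_cj k x _), ?_⟩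
  rintro l _ cl ml ⟨R', η₁, η₂, h1, h2, h3, rfl⟩
  have e1 := vgh_pH k hd.f hd.f' hd.w' hd.w a.bf.fx a.bf'.fx qa.1 h2
  have e2 := vgh_pH k hd.f hd.f' hd.w hd.w' a.bf.fx a.bf'.fx qb.1 h3
  exact ⟨R', _, _, fun L L0 hL => h1 L L0 fun z => k.dn.induction_on z
    (isClosed_le cl.norm continuous_const) fun x => (k.nA (ml _)).ge.trans (hL x), e1, e2,
    funext fun x => map_sub _ _ _⟩

end Crest.Agent.X212.Cyl12
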