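import Crest.Agent.X212.Cyl12.Tst

/-!
# Row 212, CYC-LIM (helper12): values of cyclic seeds converge
-/

set_option autoImplicit false
set_option linter.unusedSectionVars false
noncomputable section
open scoped Manifold ContDiff Topology InnerProductSpace
open MeasureTheory Set Function Filter

namespace Crest.Agent.X212.Cyl12
open An Dgr80 Cyc79 Cmp73 Eqv71
open Wz78 (nab lap SA pg_mem pg_of_mem)
open Abel74 (SBd)

variable {E : Type} [NormedAddCommGroup E] [NormedSpace ℝ E] [FiniteDimensional ℝ E]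
  [MeasurableSpace E] [BorelSpace E]
  {HM : Type} [TopologicalSpace HM] {I : ModelWithCorners ℝ E HM} [I.Boundaryless]
  {E₀ : Type} [NormedAddCommGroup E₀] [NormedSpace ℝ E₀] [FiniteDimensional ℝ E₀]
  [MeasurableSpace E₀] [BorelSpace E₀]
  {H₀ : Type} [TopologicalSpace H₀] {I₀ : ModelWithCorners ℝ E₀ H₀} [I₀.Boundaryless]
  {M : Type} [TopologicalSpace M] [ChartedSpace H₀ M] [IsManifold I₀ ∞ M] [MeasurableSpace M]
  [T2Space M] [BorelSpace M] [SecondCountableTopology M]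
  {ι lam : Type} [Fintype ι] [Fintype lam] {α : Type}
  {X : α → Type} [∀ n, TopologicalSpace (X n)] [∀ n, ChartedSpace HM (X n)]
  [∀ n, IsManifold I ∞ (X n)] [∀ n, MeasurableSpace (X n)] [∀ n, T2Space (X n)]
  [∀ n, BorelSpace (X n)] [∀ n, SecondCountableTopology (X n)] {r : ℕ}
  {g : Gs I I₀ M ι lam X} {c : ∀ n, Cfg (X n) ι lam r} {b : Cfg M ι lam r}
  {u : ∀ n, M → CL (c n).m.V b.m.V} {K : α → Type}
  [∀ n, NormedAddCommGroup (K n)] [∀ n, InnerProductSpace ℝ (K n)] [∀ n, CompleteSpace (K n)]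
  {K' : Type} [NormedAddCommGroup K'] [InnerProductSpace ℝ K'] [CompleteSpace K']

section defs
variable (g u) (J : ∀ n, K n → (X n → (c n).m.A) → Prop) (J' : K' → (M → b.m.A) → Prop)

/-- contractions converge -/
abbrev LC (h : ∀ n, K n) (h' : K') (s : ∀ n, X n → HV (c n) (K n)) (s' : M → HV b K') : Prop :=
  L1 g c b u (fun n x => ct (h n) (s n x)) fun x => ct h' (s' x)

/-- weak convergence -/
structure WK (s : ∀ n, X n → HV (c n) (K n)) (s' : M → HV b K') : Prop where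
  pk : PK g c s
  sb : SBd I₀ s'
  fx : Fx b s'
  wk : ∀ h h' σ σ', (∀ n, J n (h n) (σ n)) → J' h' σ' →
    (∃ C, ∀ᶠ n in (g.l : Filter α), ‖h n‖ ≤ C) → Q1 g c b u σ σ' → LC g u h h' s s'

/-- consequences of weak convergence -/
def DW (s : ∀ n, X n → HV (c n) (K n)) (s' : M → HV b K') : Prop :=
  ∀ h h', (∀ t t', WK g u J J' t t' → LC g u h h' t t') → LC g u h h' s s'

/-- strong convergence -/
def SK (s : ∀ n, X n → HV (c n) (K n)) (s' : M → HV b K') : Prop :=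
  ∀ z ∉ g.S c, ∀ j, ∃ h : ∀ n, K n, (∀ᶠ n in (g.l : Filter α),
    h n = am2 (ContinuousLinearMap.id ℝ _) (cj (u n z)) (s n (g.ψ n z)) j) ∧
      ∀ t t', WK g u J J' t t' → LC g u h (s' z j) t t'

end defs

variable (k : g.Bk c) (l : g.LB c b u) {J : ∀ n, K n → (X n → (c n).m.A) → Prop}
  {J' : K' → (M → b.m.A) → Prop} {s t v e β β₁ : ∀ n, X n → HV (c n) (K n)}
  {s' t' v' e' β' β₁' : M → HV b K'} {f f' φ : ∀ n, X n → ℝ} {f₀ f₀' φ₀ : M → ℝ}
  {ξ : ∀ n, X n → (c n).m.A} {ξ₀ : ∀ b : Cfg M ι lam r, M → b.m.A} {R : α → ℝ} {R' : ℝ}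
  {η : ∀ n, X n → Fm ι (c n).m.A} {η' : M → Fm ι b.m.A}
  {w w₁ : ∀ n, List (La (X n))} {w' w₁' : Cfg M ι lam r → List (La M)}

theorem PK.ub (h : PK g c s) {a : ∀ n, K n} {C : ℝ} (ha : ∀ᶠ n in (g.l : Filter α), ‖a n‖ ≤ C) :
    g.UB fun n x => Cyc79.ct (a n) (s n x) :=
  Gs.UB.mul (s := fun n _ => a n) ⟨C, ha.mono fun _ h _ => h⟩ h.bd fun _ _ => norm_ct _ _

theorem WK.dw (h : WK g u J J' s s') : DW g u J J' s s' := fun _ _ a => a _ _ h

include k l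

theorem qs_sb {f' : Cfg M ι lam r → M → ℝ} (h : g.QS c f f') : SBd I₀ (f' b) :=
  ⟨(h.lim b u l).1, h.bd.imp fun _ hC x => (isClosed_le (h.lim b u l).1.continuous.norm
    continuous_const).closure_subset_iff.2 (fun _ hy => (h.lim b u l).2.mem_closed hy
      (isClosed_le continuous_norm continuous_const) (hC.mono fun _ hn => hn _))
    (dense_of_fin (I₀ := I₀) k.ok.h4 l.lim.fin x)⟩

theorem qa_sb (h : g.QA c ξ ξ₀) : SBd I₀ (ξ₀ b) :=
  ⟨(h.lim b u l).sm, h.bd.imp fun _ => (h.lim b u l).le l.lim k.ok k.adm h.p⟩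

theorem DW.nab (h : DW g u J J' s s') (sm : ∀ n, Sm I (s n)) (sm' : Sm I₀ s') (a : ι) :
    DW g u J J' (fun n => nab I (g.G n).F.e (WH c K n) a (s n))
      (nab I₀ g.G₀.F.e (aA K' (b.m.adW b.W)) a s') := fun x y H =>
  L1.congr ((h x y H).nab l.lim k.ok k.adm (fun n => sm_ct (sm n) _) a)
    (fun n _ => (ct_nab (sm n) _ _ _).symm) fun _ => (ct_nab sm' _ _ _).symm

namespace WK

theorem vh {a : ∀ n, La (X n)} {a' : Cfg M ι lam r → La M} (ha : g.cLa c a a') (h : WK g u J J' s s')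
    (e : ∀ n, vH (K n) (g.G n).F (WA c n) (c n).m.pg (a n) (s n) (v n))
    (e' : vH K' g.G₀.F (b.m.adW b.W) b.m.pg (a' b) s' v') : WK g u J J' v v' := by
  have pk := h.pk.vh k ha e
  have fx := fx_vH h.fx e'
  cases ha with
  | mul hf =>
    obtain rfl : v = _ := funext e
    obtain rfl : v' = _ := e'
    exact ⟨pk, (qs_sb k l hf).smul h.sb, fx, fun x y σ σ' a1 a2 a3 a4 =>
      L1.congr (.smul (hf.lim b u l).1 (hf.lim b u l).2 (h.wk x y σ σ' a1 a2 a3 a4))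
        (fun _ _ => map_smul ..) fun _ => map_smul ..⟩
  | G =>
    have sb : SBd I₀ v' := ⟨e'.1.sm, h.sb.2.imp e'.1.le⟩
    refine ⟨pk, sb, fx, fun x y σ σ' a1 a2 ⟨C, a3⟩ a4 => la_res k l (fun z => PK.ct k (pk.pf z) a3)
      (fun n => sm_ct (e n).1.sm _) (fun n z => ct_mem (pk.fx n z) _) (pk.ub a3) (fun n z => ?_)
      (h.wk x y σ σ' a1 a2 ⟨C, a3⟩ a4) ⟨(sbd_ct sb y).1, (sbd_ct sb y).2, fun z => ?_⟩⟩
    · rw [ct_lap (fun a => (Wz78.con_adW (k.adm n).conn).sm a) (e n).1.sm, ← map_add, (e n).1.eq]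
    · rw [ct_lap (fun a => (Wz78.con_adW l.lim.adm.conn).sm a) e'.1.sm, ← map_add, e'.1.eq]

theorem vw (hw : FL (g.cLa c) w w') (h : WK g u J J' s s')
    (e : ∀ n, VW (vH (K n) (g.G n).F (WA c n) (c n).m.pg) (s n) (w n) (v n))
    (e' : VW (vH K' g.G₀.F (b.m.adW b.W) b.m.pg) s' (w' b) v') : WK g u J J' v v' :=
  fl_vw (Q := WK g u J J') b h (fun _ _ _ _ _ _ a h e e' => h.vh k l a e e') hw e e'

theorem ad (hl : g.QA c ξ ξ₀) (h : WK g u J J' s s') :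
    WK g u J J' (fun n x => amp (K n) (adR _ ((c n).m.pg x (ξ n x))) (s n x))
      fun x => amp K' (adR _ (b.m.pg x (ξ₀ b x))) (s' x) := by
  have e := fun x => pg_of_mem (L1.mem k l (hl.lim b u l) hl.p x)
  refine ⟨h.pk.ad k hl, ?_, h.fx.ad _, fun x y σ σ' a1 a2 a3 a4 => L1.congr
    (L1.ad k l (L1.pg k l (hl.lim b u l)) (h.wk x y σ σ' a1 a2 a3 a4)
      fun n z => ct_mem (h.pk.fx n z) _) (fun _ _ => ct_amp ..) fun _ => ct_amp ..⟩
  simp only [e]
  exact ((SBd.const (hr K' (adR _))).app (qa_sb k l hl)).app h.sb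

theorem bf (hf : g.FC c f f₀) (hf' : g.FC c f' f₀') (pk : PK g c β)
    (h : ∀ n, BF (g.G n).F (WA c n) (c n).m.pg (J n) (f n) (f' n) (φ n) (R n) (β n))
    (h' : BF g.G₀.F (b.m.adW b.W) b.m.pg J' f₀ f₀' φ₀ R' β') : WK g u J J' β β' := by
  refine ⟨pk, ?_, h'.fx, fun x y σ σ' a1 a2 _ a4 => ?_⟩
  · obtain ⟨w, a1, a2, -, a4, -⟩ := h'.loc
    exact funext a4 ▸ (qs_sb k l hf.qs).smul ⟨a1, _, a2⟩
  choose v b1 b2 b3 using fun n => (h n).wk _ _ (a1 n)
  obtain ⟨v', c1, -, c3⟩ := h'.wk _ _ a2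
  have q : Q1 g c b u (fun n z => f' n z • (c n).m.pg z (σ n z)) fun z => f₀' z • b.m.pg z (σ' z) :=
    ⟨fun z => ((hf'.qs.pf z).smul (a4.pf z)).congr fun n y => by rw [pg_of_mem (a4.p n y)],
      fun _ _ => Submodule.smul_mem _ _ (pg_mem ..), hf'.bd.mul a4.bd fun n y => by
        rw [pg_of_mem (a4.p n y), norm_smul],
      .smul hf'.sm (hf'.cv.mono le_rfl Gs.sub_S) (a4.la.pg k l)⟩
  exact L1.congr (.smul hf.sm (hf.cv.mono le_rfl Gs.sub_S)
    (q.res k l b1 (fun n z => b2 n z ▸ pg_mem ..) c1)) b3 c3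

/-- **strong convergence** -/
theorem sk (vj : ∀ n, VJ (g.G n).F (c n).m.pg (J n)) (vj' : VJ g.G₀.F b.m.pg J')
    (h : WK g u J J' s s') (he : WK g u J J' e e') (st : ∀ n, St (J n) (R n) (e n) (s n))
    (hR : ∃ C, ∀ᶠ n in (g.l : Filter α), R n ≤ C) (st' : St J' R' e' s') : SK g u J J' s s' := by
  classical
  intro z hz j
  let ε : b.m.A := EuclideanSpace.single j 1
  have n1 : ‖ε‖ = 1 := by simp [ε]
  let v : ∀ n, (c n).m.A := fun n => if ‖trn (cj (u n z)) ε‖ ≤ 1 then trn (cj (u n z)) ε else 0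
  have v1 : ∀ n, ‖v n‖ ≤ 1 := fun n => by
    simp only [v]; split_ifs with h
    exacts [h, by simp]
  have v2 : ∀ᶠ n in (g.l : Filter α), v n = trn (cj (u n z)) ε :=
    (nr k l hz).curry.mono fun n hn => if_pos (n1 ▸ (trn (cj (u n z))).le_of_opNorm_le
      ((LinearIsometryEquiv.norm_map ContinuousLinearMap.adjoint _).trans_le
        (hn.self_of_nhds.cj_le k.adm)) ε |>.trans_eq (one_mul _))
  choose a a1 a2 using fun n => st n (g.ψ n z) (v n) (v1 n)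
  obtain ⟨a', -, a3⟩ := st' z ε n1.le
  rw [dot_single] at a3
  obtain ⟨C, hC⟩ := hR
  have ba : ∀ᶠ n in (g.l : Filter α), ‖a n‖ ≤ C := hC.mono fun n hn => (a1 n).trans hn
  have pf := fun x => PK.ct k (he.pk.pf x) ba
  have m := fun n x => ct_mem (he.pk.fx n x) (a n)
  obtain ⟨σ, hσ⟩ := k.core.A l.hyp b u l.lim _ _ pf
  have q : Q1 g c b u _ σ := ⟨pf, m, he.pk.ub ba, hσ⟩
  obtain rfl : σ = fun y => ct a' (e' y) := eq_of_tst k l hσ.sm (sm_ct he.sb.1 _) (L1.mem k l hσ m)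
    (fun y => ct_mem (he.fx y) _) fun w T hT hS w0 sw mw => by
      obtain ⟨t, t1, t2⟩ := exists_tst k l hT hS w0 sw mw
      choose x x1 x2 using fun n => vj n (t n) (t2 n).1 (t2 n).2.1 fun y => pg_of_mem (t1.p n y)
      obtain ⟨y, y1, y2⟩ := vj' w sw (.intro hT w0) fun y => pg_of_mem (mw y)
      have i1 := int_tst k l hT hS w0 t1 (fun n => (t2 n).2.2) t1 z
      have i2 := int_tst k l hT hS w0 t1 (fun n => (t2 n).2.2) q z
      simp only [← x2 _ _ _ (x1 _)] at i1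
      simp only [real_inner_self_eq_norm_sq (x _)] at i1
      simp only [← x2 _ _ _ (a2 _), inner_dot] at i2
      have i3 := ((h.wk x y t w x1 y1 ⟨_, (i1.sqrt.eventually (gt_mem_nhds (lt_add_one _))).mono
        fun n hn => (Real.sqrt_sq (norm_nonneg _)).ge.trans hn.le⟩ t1).cv.pt z hz).inner (𝕜 := ℝ)
          (tendsto_const_nhds (x := ε))
      rw [← y2 _ _ a3, ← dot_single, inner_dot]
      exact tendsto_nhds_unique i2 (i3.congr' (v2.mono fun n hn => by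
        beta_reduce; rw [hn, inner_trn']))
  obtain ⟨D, hD⟩ := h.pk.bd
  exact ⟨_, v2.mono fun n hn => by rw [am2_dot, hn], fun t t' ht => ht.wk _ _ _ _ a2 a3
    ⟨D, hD.mono fun n hn => (norm_dot _ _).trans ((mul_le_of_le_one_right (norm_nonneg _)
      (v1 n)).trans (hn _))⟩ q⟩

end WK

theorem SK.left (h : SK g u J J' s s') (fx : ∀ n, Fx (c n) (s n)) (ht : DW g u J J' t t') (z : M)
    (hz : z ∉ g.S c) : Tendsto (fun n => cj (u n z) (tp (hr (K n) (adR _)) (s n (g.ψ n z))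
      (t n (g.ψ n z)))) g.l (𝓝 (tp (hr K' (adR _)) (s' z) (t' z))) := by
  choose a a1 a2 using h z hz
  rw [tp_left]
  refine (tendsto_finsetSum _ fun j _ => ((tpL (adR _) (EuclideanSpace.single j 1)).continuous.tendsto
    _).comp ((ht _ _ (a2 j)).cv.pt z hz)).congr' (((eventually_all.2 a1).and
      (nr k l hz).curry).mono fun n hn => ?_)
  beta_reduce
  rw [me_tp hn.2.self_of_nhds.me (ct_mem (fx n _)), tp_left]
  exact Finset.sum_congr rfl fun j _ => by rw [ct_id, ← hn.1 j]; rfl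

theorem SK.right (h : SK g u J J' s s') (fx : ∀ n, Fx (c n) (t n)) (ht : DW g u J J' t t') (z : M)
    (hz : z ∉ g.S c) : Tendsto (fun n => cj (u n z) (tp (hr (K n) (adR _)) (t n (g.ψ n z))
      (s n (g.ψ n z)))) g.l (𝓝 (tp (hr K' (adR _)) (t' z) (s' z))) := by
  choose a a1 a2 using h z hz
  rw [tp_right]
  have q : ∀ j, Continuous fun w => tp (adR (Fin b.m.N)) w (EuclideanSpace.single j 1) := fun j =>
    (tpL (adR _)).continuous.clm_apply continuous_const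
  refine (tendsto_finsetSum _ fun j _ => ((q j).tendsto _).comp ((ht _ _ (a2 j)).cv.pt z hz)).congr'
      (((eventually_all.2 a1).and (nr k l hz).curry).mono fun n hn => ?_)
  beta_reduce
  rw [me_tp hn.2.self_of_nhds.me (ct_mem (fx n _)), tp_right]
  exact Finset.sum_congr rfl fun j _ => by rw [ct_id, ← hn.1 j]; rfl

theorem la_cur (h : WK g u J J' v v') (ht : WK g u J J' t t') (st : SK g u J J' t t')
    (sv : ∀ n, Sm I (v n)) (sm : ∀ n, Sm I (t n)) (a : ι) :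
    L1 g c b u (fun n x => cur (g.G n).F (WH c K n) (hr (K n) (adR _)) (v n) (t n) x a)
      fun x => cur g.G₀.F (aA K' (b.m.adW b.W)) (hr K' (adR _)) v' t' x a := by
  have C := l.lim.adm.conn
  have d := h.dw.nab k l sv h.sb.1 a
  have sd := sm_nab (Wz78.frm g.G₀.F).se (sm_WK (K := K') C) h.sb.1 a
  have a1 := la_of_pt k l (fun x => (h.pk.pf x).two (ht.pk.pf x) fun _ _ _ _ _ p q =>
    wt_tp (k.gx x) p q cn_P) (sm_tp h.sb.1 ht.sb.1) (st.right k l h.pk.fx h.dw)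
  have a2 := la_of_pt k l (σ := fun dw i => sP dw (i + (1 + 0))) (fun x => (h.pk.pf x).two (ht.pk.pf x)
    fun _ _ _ _ _ p q => wt_tp (k.gx x) (p.D a) q (cn_PP 1 0)) (sm_tp sd ht.sb.1)
    (st.right k l (fun n => (h.pk.fx n).nab (k.adm n).ok (k.adm n).conn (sv n) a) d)
  have a3 := la_of_pt k l (σ := fun dw i => sP dw (i + (0 + 1))) (fun x => (ht.pk.pf x).two (h.pk.pf x)
    fun _ _ _ _ _ p q => wt_tp (k.gx x) p (q.D a) (cn_PP 0 1)) (sm_tp ht.sb.1 sd)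
    (st.left k l ht.pk.fx d)
  refine L1.congr (.add (L1.sub (a1.nab l.lim k.ok k.adm (fun n => sm_tp (sv n) (sm n)) a) a2) a3)
    (fun n x => ?_) fun x => ?_
  · rw [nab_tp (k.adm n).conn (sv n) (sm n), add_sub_cancel_left]; rfl
  · rw [nab_tp C h.sb.1 ht.sb.1, add_sub_cancel_left]; rfl

section vg
variable (vj : ∀ n, VJ (g.G n).F (c n).m.pg (J n)) (vj' : VJ g.G₀.F b.m.pg J')
  (hR : ∃ C, ∀ᶠ n in (g.l : Filter α), R n ≤ C)
include vj vj' hR

theorem la_vg (hw : FL (g.cLa c) w w') (h : WK g u J J' s s') (he : WK g u J J' e e') :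
    ∀ {t t'} {η : ∀ n, X n → Fm ι (c n).m.A} {η' : M → Fm ι b.m.A}, WK g u J J' t t' →
    (∀ n, vG (g.G n).F (WA c n) (c n).m.pg (J n) (adR _) (R n) (e n) (s n) (w n) (t n) (η n)) →
    vG g.G₀.F (b.m.adW b.W) b.m.pg J' (adR _) R' e' s' (w' b) t' η' →
      ∀ a, L1 g c b u (fun n x => η n x a) fun x => η' x a := by
  induction hw with
  | nil =>
    intro t t' η η' _ e e' a
    obtain rfl : η = _ := funext e
    obtain rfl : η' = _ := e'
    exact (Gs.QA.zero k).lim b u l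
  | cons a hw ih =>
    intro t t' η η' ht e e' i
    cases a with
    | mul hf => exact ih (ht.vh k l (.mul hf) (fun _ => rfl) rfl) e e' i
    | G =>
      choose u₀ u₁ m η₀ a1 a2 a3 a4 a5 a6 using e
      obtain ⟨u₀', u₁', m', η₀', b1, b2, b3, b4, b5, rfl⟩ := e'
      obtain rfl : η = _ := funext a6
      have q := ht.vh k l .G a3 b3
      exact (ih q a5 b5 i).sub (la_cur k l ((h.vw k l hw a1 b1).vh k l .G a2 b2) q
        (q.sk k l vj vj' he a4 hR b4) (fun n => (a2 n).1.sm) (fun n => (a3 n).1.sm) i)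

theorem la_vgh (hf : g.FC c f f₀) (hf' : g.FC c f' f₀') (hw : FL (g.cLa c) w w')
    (hw₁ : FL (g.cLa c) w₁ w₁') (hb : WK g u J J' β β') (hb' : WK g u J J' β₁ β₁')
    (hs : WK g u J J' s s') (hl : g.QA c ξ ξ₀)
    (e : ∀ n, vgh (g.G n).F (WA c n) (c n).m.pg (J n) (adR _) (R n) (f n) (f' n) (β n) (β₁ n) (w n)
      (w₁ n) (fun x => adR _ ((c n).m.pg x (ξ n x))) (s n) (η n))
    (e' : vgh g.G₀.F (b.m.adW b.W) b.m.pg J' (adR _) R' f₀ f₀' β' β₁' (w' b) (w₁' b)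
      (fun x => adR _ (b.m.pg x (ξ₀ b x))) s' η') (a : ι) :
    L1 g c b u (fun n x => η n x a) fun x => η' x a := by
  choose η₁ η₂ v m a1 a2 a3 a4 a5 using e
  obtain ⟨η₁', η₂', v', m', b1, b2, b3, b4, rfl⟩ := e'
  obtain rfl : η = _ := funext a5
  have x1 := fl_append hw (fl_xw hf hf')
  exact (la_vg k l vj vj' hR x1 hb' hb (hs.ad k l hl) a1 b1 a).add (la_vg k l vj vj' hR (fl_xw hf' hf)
    hb hb' (((hb.vw k l hw₁ a2 b2).ad k l hl).vw k l (fl_reverse x1) a3 b3) a4 b4 a)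

end vg

variable {d : ∀ n, Cy (X n)} {d₀ : Cy M} (h : CC g c d φ R d₀)
  (V : ∀ n, VC (g.G n).F (c n) (d n) (φ n) (R n))
include h

theorem CC.wk (V' : VC g.G₀.F b d₀ φ₀ R') :
    WK g u (fun n => (V n).J) V'.J (fun n => (V n).b) V'.b ∧
    WK g u (fun n => (V n).J) V'.J (fun n => (V n).b') V'.b' ∧
    WK g u (fun n => (V n).J) V'.J (fun n => (V n).al) V'.al ∧
    WK g u (fun n => (V n).J) V'.J (fun n => (V n).be) V'.be :=
  have a := WK.bf k l h.f' h.f (h.pb' k V) (fun n => (V n).bf') V'.bf'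
  ⟨.bf k l h.f h.f' (h.pb k V) (fun n => (V n).bf) V'.bf, a,
    a.vw k l (fl_append h.w (fl_xw h.f h.f')) (fun n => (V n).wa) V'.wa,
    a.vw k l (fl_append h.w' (fl_xw h.f h.f')) (fun n => (V n).wb) V'.wb⟩

variable (h₀ : d₀.OK g.G₀.F)
include h₀

omit l in
/-- **CYC-LIM**, the seed -/
theorem qs : g.QA c (fun n => (V n).s) fun b => (d₀.sed g.G₀.F).s b := by
  have pf : ∀ x, g.Pf c x (WA c) fun n y => tp (hr (V n).K (adR _)) ((V n).al y) ((V n).be y) :=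
    fun x => ((h.al k V).pf x).two ((h.be k V).pf x) fun _ _ _ _ _ p q => wt_tp (k.gx x) p q cn_P
  have bd : ∀ n x, ‖(V n).s x‖ ≤ ‖(V n).al x + (V n).al x‖ * ‖(V n).be x‖ := fun n x => by
    rw [← two_smul ℝ, norm_smul, Real.norm_two]
    exact (Wz78.norm_pg _ _).trans ((tpL (hr (V n).K (adR _))).le_of_opNorm₂_le_of_le
      (norm_tpL norm_hr) le_rfl le_rfl)
  refine ⟨fun x => (pf x).one fun _ _ _ _ _ => (k.gx x).wt_pg, fun _ _ => pg_mem ..,
    ((h.al k V).bd.add (h.al k V).bd).mul (h.be k V).bd bd, fun b u l => ?_⟩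
  obtain ⟨φ₀, S, n, -, un⟩ := exists_un k.tame.choose_spec h₀
  obtain ⟨V', e, -⟩ := lit k.ok.B₀ k.tame l.lim.adm.ok l.lim.adm.conn un
  obtain ⟨a1, -, a3, a4⟩ := h.wk k l V V'
  have q := L1.pg k l (la_of_pt k l pf (sm_tp a3.sb.1 a4.sb.1) ((a3.sk k l (fun n => (V n).vj) V'.vj
    a1 (fun n => (V n).sa) h.R V'.sa).left k l a3.pk.fx a4.dw))
  beta_reduce
  rw [← e]
  exact q

omit l in
/-- **CYC-LIM**, the gradient -/
theorem qa (hl : g.QA c ξ ξ₀) (hη : ∀ n, (V n).A (ξ n) (η n)) (l : g.LB c b u) (a : ι) :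
    g.LA c b (g.S c) u (fun n x => η n x a) fun x => (d₀.sed g.G₀.F).sA b (ξ₀ b) x a := by
  obtain ⟨φ₀, S, n, -, un⟩ := exists_un k.tame.choose_spec h₀
  obtain ⟨V', -, -, e⟩ := lit k.ok.B₀ k.tame l.lim.adm.ok l.lim.adm.conn un
  obtain ⟨a1, a2, a3, a4⟩ := h.wk k l V V'
  obtain ⟨R₀, η₁', η₂', -, b2, b3, b4⟩ := e _ (qa_sb k l hl)
  choose R₁ η₁ η₂ c1 c2 c3 c4 using hη
  obtain rfl : η = _ := funext c4
  obtain ⟨C, hC⟩ := hl.bd
  obtain ⟨D, hD⟩ := h.R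
  have hR : ∃ C, ∀ᶠ n in (g.l : Filter α), R₁ n ≤ C := ⟨D * max C 0, (hC.and hD).mono fun n hn =>
    (c1 n _ (le_max_right _ _) fun x => le_max_of_le_left (hn.1 x)).trans
      (mul_le_mul_of_nonneg_right hn.2 (le_max_right _ _))⟩
  rw [b4]
  exact (la_vgh k l (fun n => (V n).vj) V'.vj hR h.f h.f' h.w' h.w a1 a2 a3 hl c2 b2 a).sub
    (la_vgh k l (fun n => (V n).vj) V'.vj hR h.f h.f' h.w h.w' a1 a2 a4 hl c3 b3 a)

end Crest.Agent.X212.Cyl12
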