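import Crest.Agent.X212.Cyl12.L2
import Crest.Agent.X212.Cmp73.Cv

/-!
# Row 212, CYC-LIM (helper12): the fields of a cyclic seed for ANY metric connection
-/

set_option autoImplicit false
set_option linter.unusedSectionVars false
noncomputable section
open scoped Manifold ContDiff Topology InnerProductSpace
open MeasureTheory Set Function Filter

namespace Crest.Agent.X212.Cyl12
open An Dgr80 Cyc79 Sob92 Mp86 Mon62 Prm93
open Wz78 (nab lap)
open Abel74 (SBd)
open Ell97 (UB)
open Cmp73 (MB VW Rs)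
open Wrd81 (wd)
open ContinuousLinearMap (adjoint)

variable {E : Type} [NormedAddCommGroup E] [NormedSpace ℝ E] [FiniteDimensional ℝ E]
  [MeasurableSpace E] [BorelSpace E]
  {HM : Type} [TopologicalSpace HM] {I : ModelWithCorners ℝ E HM} [I.Boundaryless]
  {M : Type} [TopologicalSpace M] [ChartedSpace HM M] [IsManifold I ∞ M]
  [MeasurableSpace M] [T2Space M] [BorelSpace M] [SecondCountableTopology M]
  {ι : Type} [Fintype ι] {F : Fr I M ι} {C : ℕ → ℝ}

section loc
variable {V : Type} [NormedAddCommGroup V] [InnerProductSpace ℝ V] {A : ι → M → V →L[ℝ] V}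

/-- interior estimates for solutions of the homogeneous equation (after `Mon62.mb_res`) -/
theorem mb_loc (hF : F.Tame C) (hA : ∀ a, F.Cb (A a)) {u : ℕ → M → V} (hu : ∀ n, F.Cb (u n)) {R : ℝ}
    (hR : ∀ n x, ‖u n x‖ ≤ R) {ψ : M → ℝ} (p1 : F.Cb ψ) (p3 : ∀ x, 0 ≤ ψ x) {x : M}
    (p4 : ∀ᶠ y in 𝓝 x, ψ y = 1) (he : ∀ n y, ψ y ≠ 0 → u n y + lap I F.e F.dv A (u n) y = 0)
    (k : ℕ) : MB I atTop x k u := by
  classical
  let s : ℕ → M → V := fun n y => u n y + lap I F.e F.dv A (u n) y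
  obtain ⟨ε, e1, e2⟩ := exists_eps (F := F.toPre) (f := s) fun n =>
    Cb_add (hu n) (cb_lap hF hA (hu n))
  let ρ : ℕ → M → ℝ := fun n x => ψ x + ε n
  have r1 : UB (fun _ => F.toPre) ρ := (ub_fx p1).add (Dm.ub_const
    ⟨1, fun n => by rw [Real.norm_of_nonneg (e1 n).1.le]; exact (e1 n).2⟩)
  have r0 : ∀ n x, ρ n x ≠ 0 := fun n x => (add_pos_of_nonneg_of_pos (p3 x) (e1 n).1).ne'
  let G : ℕ → Fr I M ι := fun n => cfr F (ρ n) (r1.sm n) (r0 n)
  have hS := fun a b : ι => (UB.const (F := fun _ : ℕ => F.toPre)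
    (if a = b then (1 : ℝ) else 0)).smul r1
  have up : ∀ {N : Type} [NormedAddCommGroup N] [NormedSpace ℝ N] {f : ℕ → M → N},
      UB (fun _ => F.toPre) f → UB (fun n => (G n).toPre) f := ub_mix (fun _ => cfr_mix) hS
  have a1 := fun a => up (r1.smul (ub_fx (hA a)))
  have s1 : UB (fun _ => F.toPre) fun n x => ρ n x • s n x := by
    convert e2 using 3 with n y
    by_cases h : ψ y = 0
    · simp [ρ, h]
    · simp [s, he n y h]
  have hd : ∀ a, UB (fun n => (G n).toPre) fun n => (G n).dv a := fun a =>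
    up ((r1.smul (ub_fx ⟨C, hF.dv a⟩)).add (r1.D a))
  have su := fun n => cb_sm (hu n)
  have h0 : Od (fun n => (G n).toPre) u 0 u := Od.wd []
  have hU : UB (fun n => (G n).toPre) u := bern (F := G) (fun a b l => up (((r1.smul
      (ub_fx ⟨C, hF.c a b l⟩)).add ((r1.D a).smul (ub_fx ⟨C, hF.P b l⟩))).sub
      ((r1.D b).smul (ub_fx ⟨C, hF.P a l⟩)))) hd
    (fun n => bumps_mix hF cfr_mix (fun a b => (hS a b).cb n) fun a => (hd a).cb n)
    (fun n => cfr_mix.Cb (fun a b => (hS a b).cb n) (hu n)) hR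
    (od_lap (A := fun n a x => ρ n x • A a x) hd a1 su
      (((((Od.cst (up s1)).sub ((h0.mono zero_le_one).smul (up r1))).smul (up r1)).sub
        (Od.sum Finset.univ fun a => ((h0.D su a).add ((h0.app (a1 a)).mono
          zero_le_one)).smul (up ((UB.const (2 : ℝ)).smul (r1.D a))))).congr fun n y => by
        rw [cfr_lap (fun a => cb_sm (hA a)) (su n), ← smul_sub, add_sub_cancel_left]
        rfl))
  have key : ∀ {f : ℕ → M → V}, UB (fun n => (G n).toPre) f → MB I atTop x k f := by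
    have z : ∀ {f : ℕ → M → V}, UB (fun n => (G n).toPre) f → MB I atTop x 0 f := fun ⟨C, hC⟩ =>
      MB.zero_of (.of_forall fun q => (hC q.1).1 q.2)
        ⟨C 0, .of_forall fun q => CB_bound ((hC q.1).2 0) q.2⟩
    induction k with
    | zero => exact z
    | succ k ih =>
      refine fun {f} hf => MB.gainP F.toPre (z hf) fun a =>
        ((MB.consts (c := fun n => (1 + ε n)⁻¹) ⟨1, .of_forall fun n => ?_⟩).smul
          (ih (hf.D a))).congr ?_
      · rw [Real.norm_of_nonneg (inv_nonneg.2 (by linarith [(e1 n).1]))]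
        exact inv_le_one_of_one_le₀ (by linarith [(e1 n).1])
      · filter_upwards [prod_mem_prod univ_mem p4] with q hq
        rw [cfr_D]
        simp only [ρ, show ψ q.2 = 1 from hq.2]
        rw [inv_smul_smul₀ (by linarith [(e1 q.1).1])]
  exact key hU

theorem exists_bump {O : Set M} {x : M} (h : O ∈ 𝓝 x) : ∃ η : M → ℝ, Sm I η ∧
    HasCompactSupport η ∧ (∀ y, 0 ≤ η y ∧ η y ≤ 1) ∧ (∀ y, η y ≠ 0 → y ∈ O) ∧
      ∀ᶠ y in 𝓝 x, η y = 1 := by
  obtain ⟨η, -, hη⟩ := (SmoothBumpFunction.nhds_basis_tsupport (I := I) x).mem_iff.1 h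
  exact ⟨η, η.contMDiff, η.hasCompactSupport, fun y => ⟨η.nonneg, η.le_one⟩,
    fun y hy => hη (subset_tsupport _ hy), η.eventuallyEq_one⟩

/-- **limits of bounded solutions are smooth** -/
theorem sm_lim [FiniteDimensional ℝ V] (hF : F.Tame C) (hA : ∀ a, Sm I (A a)) {O : Set M}
    (hO : IsOpen O) {v : ℕ → M → V} (hv : ∀ n, Sm I (v n)) {R : ℝ} (hR : ∀ n, ∀ x ∈ O, ‖v n x‖ ≤ R)
    (he : ∀ n, ∀ x ∈ O, v n x + lap I F.e F.dv A (v n) x = 0) {g : M → V}
    (hg : ∀ x ∈ O, Tendsto (v · x) atTop (𝓝 (g x))) {x : M} (hx : x ∈ O) :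
    ContMDiffAt I 𝓘(ℝ, V) ∞ g x := by
  refine (⟨fun k x hx => ?_, hg⟩ : Cmp73.Cv I atTop O v g).smoothAt hO hx
  obtain ⟨η, a1, a2, a3, a4, a5⟩ := exists_bump (I := I) (hO.mem_nhds hx)
  obtain ⟨ψ, b1, b2, b3, b4, b5⟩ := exists_bump (I := I) a5.eventually_nhds
  refine (mb_loc (A := fun a y => η y • A a y) (u := fun n y => η y • v n y) (R := |R|) hF
    (fun a => Cb_of_hcs (a1.smul (hA a)) a2.smul_right)
    (fun n => Cb_of_hcs (a1.smul (hv n)) a2.smul_right) (fun n y => ?_) (Cb_of_hcs b1 b2)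
    (fun y => (b3 y).1) b5 (fun n y hy => ?_) k).congr ?_
  · by_cases h : η y = 0
    · simp [h]
    · rw [norm_smul, Real.norm_of_nonneg (a3 y).1]
      exact (mul_le_of_le_one_left (norm_nonneg _) (a3 y).2).trans
        ((hR n y (a4 y h)).trans (le_abs_self _))
  · have e : ∀ᶠ z in 𝓝 y, η z = 1 := b4 y hy
    have e1 := e.self_of_nhds
    rw [← he n y (a4 y (by rw [e1]; exact one_ne_zero)), e1, one_smul]
    refine congrArg _ ?_
    rw [Eqv71.lap_congr (e.mono fun z hz => by simp only [hz, one_smul] :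
      (fun y => η y • v n y) =ᶠ[𝓝 y] v n)]
    simp only [lap]
    refine congrArg _ (Finset.sum_congr rfl fun a _ => ?_)
    have k : nab I F.e (fun a y => η y • A a y) a (v n) =ᶠ[𝓝 y] nab I F.e A a (v n) :=
      e.mono fun z hz => by simp only [nab, hz, one_smul]
    rw [Wz78.nab_congr _ k, k.eq_of_nhds]
    simp only [nab, e1, one_smul]
  · filter_upwards [prod_mem_prod univ_mem a5] with q hq
    rw [show η q.2 = 1 from hq.2, one_smul]

end loc

variable {κ : Type} [Fintype κ] [DecidableEq κ] {A : ι → M → En κ} {p : M → En κ}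
  {K : Type} [NormedAddCommGroup K] [InnerProductSpace ℝ K] [CompleteSpace K]
  {K' : Type} [NormedAddCommGroup K'] [InnerProductSpace ℝ K'] [CompleteSpace K']
  {α β : M → Fm κ K} {f f' φ : M → ℝ} {S N : ℝ}

theorem sbd_ct (h : SBd I α) (k : K) : SBd I fun z => ct k (α z) := (SBd.const (ct k)).app h

theorem sbd_fb (h : SBd I α) (R : K →L[ℝ] K') : SBd I fun z => fb R (α z) := (SBd.const (fb R)).app h

theorem sbd_amp {T : M → En κ} (hT : SBd I T) (h : SBd I α) : SBd I fun z => amp K (T z) (α z) :=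
  ((SBd.const (amp K)).app hT).app h

/-- the resolvent on the Hilbert fibre -/
theorem res_amp (hT : F.Tame C) (hA : Mc I A) (hs : SBd I α) :
    F.IsRes (aA K A) α (F.res (aA K A) α) ∧
      ∀ h z, ct h (F.res (aA K A) α z) = F.res A (fun x => ct h (α x)) z := by
  have hB := bumps_of_tame F hT
  have e := fun h : K => isRes_sbd hT hA (sbd_ct hs h)
  obtain ⟨D, hD⟩ := hs.2
  let φ : M → K →L[ℝ] Eu κ := fun z => LinearMap.mkContinuous
    { toFun := fun h => F.res A (fun x => ct h (α x)) z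
      map_add' := fun h h' => by
        rw [← congrFun (res_add hB hA ⟨_, e h⟩ ⟨_, e h'⟩) z]
        exact congrArg (F.res A · z)
          (funext fun x => congrArg (· (α x)) ((Ten12.ctL κ K).map_add h h'))
      map_smul' := fun a h => by
        rw [RingHom.id_apply, ← congrFun (res_smul hB hA a _) z]
        exact congrArg (F.res A · z)
          (funext fun x => congrArg (· (α x)) ((Ten12.ctL κ K).map_smul a h)) }
    D fun h => norm_res_le hB hA (fun x => (norm_ct h _).trans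
      ((mul_le_mul_of_nonneg_left (hD x) (norm_nonneg h)).trans_eq (mul_comm _ _))) z
  have hφ : ∀ h, (fun z => ct h (Ten12.rz κ K (φ z))) = F.res A fun x => ct h (α x) := fun h =>
    funext fun z => Ten12.ct_rz _ h
  have hr : F.IsRes (aA K A) α fun z => Ten12.rz κ K (φ z) :=
    isRes_of_ct hA.sm (sm_of_ct fun h => hφ h ▸ (e h).1) ⟨_, fun z => (Ten12.norm_rz _).trans
      (mul_le_mul_of_nonneg_left (LinearMap.mkContinuous_norm_le' _ _) (Real.sqrt_nonneg _))⟩
      fun h => hφ h ▸ e h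
  rw [res_eq (A := aA K A) hB ⟨sm_aA hA.sm, fun a x => skew_amp (hA.sk a x)⟩ hr]
  exact ⟨hr, fun h z => congrFun (hφ h) z⟩

/-! ### the base field -/

theorem _root_.Crest.Agent.X212.Cyc79.Pq.sbd (h : Pq F A p) : SBd I p :=
  ⟨h.sm, 1, fun x => ContinuousLinearMap.opNorm_le_bound _ zero_le_one
    fun v => by simpa using h.norm_le x v⟩

theorem _root_.Crest.Agent.X212.Cyc79.Pq.fix (h : Pq F A p) {s : M → Eu κ}
    (hs : ∀ x, p x (s x) = s x) (x : M) : p x (F.res A s x) = F.res A s x :=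
  res_fix h.bmp h.mc h.sm h.sbd.2 (fun x => Abel74.itw_of fun a => h.par a x) hs x

theorem _root_.Crest.Agent.X212.Cyc79.Pq.pp (h : Pq F A p) (x : M) (v : Eu κ) :
    p x (p x v) = p x v := by rw [← mul_apply_eq_comp, h.idem]

theorem sm_cf (h : Sm I φ) (k s : ℝ) : Sm I (cf k s φ) :=
  Real.smoothTransition.contDiff.contMDiff.comp (contMDiff_const.mul (h.sub contMDiff_const))

theorem isFld_cf (h : Pq F A p) (hφ : Cu F N φ) (hN : 0 < N) (hf : SBd I f')
    (h0 : ∀ x, f' x ≠ 0 → φ x ≤ 0) : IsFld F.toPre (fun u z => cf 8 (3 / 4) φ z •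
      F.res A (fun y => f' y • p y (u y)) z) (bs F A p (cf 8 (3 / 4) φ) f') := by
  obtain ⟨C, hT⟩ := h.tame
  obtain ⟨m, hm⟩ := hf.2
  have m1 := one_le_mS
  have sb := fun u : Sec I (triv M (Eu κ)) => hf.smul (h.sbd.app (sbd_sec u))
  have r := fun u => isRes_sbd hT h.mc (sb u)
  set ζ := cf 3 (1 / 3) φ
  set c := 6 * kL (|C 0| + 1) (2 * (mS * 3) ^ 2 * N)
  have c0 : 0 ≤ c := mul_nonneg (by norm_num) (kL_nonneg (by positivity) (by positivity))
  let L : M → Sec I (triv M (Eu κ)) →ₗ[ℝ] Eu κ := fun z =>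
    { toFun := fun u => ζ z • F.res A (fun y => f' y • p y (u.1 y)) z
      map_add' := fun u v => by
        rw [← smul_add, ← congrFun (res_add h.bmp h.mc ⟨_, r u⟩ ⟨_, r v⟩) z]
        simp [smul_add]
      map_smul' := fun a u => by
        rw [RingHom.id_apply, smul_comm a, ← congrFun (res_smul h.bmp h.mc a _) z]
        simp [smul_comm a] }
  have b : ∀ z u, ‖L z u‖ ≤ √c * |m| * F.nrm 0 u.1 := fun z u => by
    have k := sup_w hT h.mc wu_one ((l4_of_tame hT).mono (by linarith [le_abs_self (C 0)]))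
      (by positivity : 0 < |C 0| + 1) (hφ.cf (k := 3) (by norm_num) 0)
      (hφ.cf (k := 3) (by norm_num) (1 / 3)) (by positivity) (cf_abs _ _) (cf_abs _ _)
      (s := fun y => f' y • p y (u.1 y))
      (fun x hx => by rw [by_contra fun e => hx (cf_zero (by norm_num) (h0 x e)), zero_smul])
      (fun x hx => cf_one (by
        have : ¬φ x ≤ 1 / 3 := fun e => hx (cf_zero (by norm_num) e)
        linarith [not_le.1 this])) (sb u).1.continuous
      (u.2.2.1.mono fun y hy e => hy (by simp [e])) z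
    rw [← Pre.norm_toH]
    refine (abs_le_of_sq_le_sq' (k.trans ?_) (by positivity)).2
    rw [mul_one, mul_pow (_ * _), mul_pow √c, Real.sq_sqrt c0, sq_toH, mul_assoc c,
      ← integral_const_mul (|m| ^ 2)]
    refine mul_le_mul_of_nonneg_left (integral_mono_of_nonneg (.of_forall fun y => by positivity)
      ((int_is (Is.toH u)).const_mul _) (.of_forall fun y => ?_)) c0
    simp only [inv_one, one_mul, norm_smul, ← mul_pow]
    gcongr
    exacts [(hm y).trans (le_abs_self _), h.norm_le y _]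
  choose T t1 t2 using fun z => Pre.exists_ext (F := F.toPre) (k := 0) (L z) (by positivity) (b z)
  have key : IsFld F.toPre (fun u z => cf 8 (3 / 4) φ z • F.res A (fun y => f' y • p y (u y)) z)
      fun z => cf 8 (3 / 4) φ z • Ten12.rz κ _ (T z) := by
    refine ⟨sm_of_ct fun k x => ?_, fun u z => ?_⟩
    · simp only [map_smul, Ten12.ct_rz]
      rcases lt_or_ge (φ x) (3 / 4) with hx | hx
      · refine (contMDiffAt_const (c := 0)).congr_of_eventuallyEq ?_
        filter_upwards [hφ.sm.continuous.continuousAt.eventually_lt_const hx] with y hy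
        rw [cf_zero (by norm_num) hy.le, zero_smul]
      obtain ⟨g, g1, g2⟩ := mem_closure_iff_seq_limit.1 (F.dense_toH 0 (triv M (Eu κ)) k)
      choose u hu using g1
      obtain ⟨D, hD⟩ := g2.norm.bddAbove_range
      have z1 : ∀ y, 2 / 3 < φ y → ∀ n, F.res A (fun y => f' y • p y ((u n).1 y)) y = T y (g n) :=
        fun y hy n => by
          rw [← hu, t1]
          exact (by rw [show ζ y = 1 from cf_one (by linarith), one_smul] :
            _ = ζ y • F.res A (fun y => f' y • p y ((u n).1 y)) y)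
      refine (sm_cf hφ.sm _ _ x).smul (sm_lim (O := {y | 2 / 3 < φ y}) (R := √c * |m| * D) hT h.mc.sm
        (isOpen_lt continuous_const hφ.sm.continuous) (fun n => (r (u n)).1) (fun n y hy => ?_)
        (fun n y hy => ?_) (fun y hy => ?_) (show 2 / 3 < φ x by linarith))
      · rw [z1 y hy]
        exact (T y).le_of_opNorm_le_of_le (t2 y) (hD ⟨n, rfl⟩)
      · rw [(r (u n)).2.2]
        beta_reduce
        rw [by_contra fun e => absurd (h0 y e) (not_le.2 (lt_trans (by norm_num) hy)), zero_smul]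
      · simp only [z1 y hy]
        exact ((T y).continuous.tendsto k).comp g2
    · rw [map_smul, Ten12.ct_rz, t1]
      by_cases hz : φ z ≤ 3 / 4
      · simp only [cf_zero (by norm_num : (0 : ℝ) ≤ 8) hz, zero_smul]
      · exact congrArg _ (by rw [show ζ z = 1 from cf_one (by linarith [not_le.1 hz]), one_smul] :
          ζ z • F.res A (fun y => f' y • p y (u.1 y)) z = _)
  rw [bs, key.eq]
  exact key

theorem isFld_bs (h : Pq F A p) (hφ : Cu F N φ) (hN : 0 < N) (hf : Sm I f) (hf' : SBd I f')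
    (h1 : ∀ x, f x ≠ 0 → 1 ≤ φ x) (h0 : ∀ x, f' x ≠ 0 → φ x ≤ 0) :
    IsFld F.toPre (fun u z => f z • F.res A (fun y => f' y • p y (u y)) z) (bs F A p f f') ∧
      ∀ z, bs F A p f f' z = f z • bs F A p (cf 8 (3 / 4) φ) f' z := by
  have k := isFld_cf h hφ hN hf' h0
  have key : IsFld F.toPre (fun u z => f z • F.res A (fun y => f' y • p y (u y)) z)
      fun z => f z • bs F A p (cf 8 (3 / 4) φ) f' z := ⟨hf.smul k.1, fun u z => by
    rw [map_smul, k.2]
    beta_reduce
    by_cases hz : f z = 0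
    · simp [hz]
    · rw [cf_one (by linarith [h1 z hz]), one_smul]⟩
  have e : bs F A p f f' = _ := key.eq
  exact ⟨e ▸ key, congrFun e⟩

theorem fix_bs (h : Pq F A p)
    (k : IsFld F.toPre (fun u z => f z • F.res A (fun y => f' y • p y (u y)) z) (bs F A p f f'))
    (z : M) : amp _ (p z) (bs F A p f f' z) = bs F A p f f' z :=
  ext_toH fun u => by
    rw [ct_amp, k.2, map_smul, h.fix fun x => by rw [map_smul, h.pp]]

theorem hom_bs (h : Pq F A p) (hf' : SBd I f')
    (k : IsFld F.toPre (fun u z => f z • F.res A (fun y => f' y • p y (u y)) z) (bs F A p f f'))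
    {z : M} (hz : ∀ᶠ y in 𝓝 z, f y = 1) (h0 : f' z = 0) :
    bs F A p f f' z + lap I F.e F.dv (aA _ A) (bs F A p f f') z = 0 :=
  ext_toH fun u => by
    have r := isRes_sbd h.tame.choose_spec h.mc (hf'.smul (h.sbd.app (sbd_sec u)))
    have e : (fun y => ct (F.toH 0 _ u) (bs F A p f f' y)) =ᶠ[𝓝 z]
        F.res A fun y => f' y • p y (u.1 y) := hz.mono fun y hy => by simp only [k.2, hy, one_smul]
    rw [map_add, ← ct_lap h.mc.sm k.1, Eqv71.lap_congr e, e.eq_of_nhds, r.2.2]
    simp [h0]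

/-! ### fields of operators -/

variable (F) in
/-- `α` is the field of `S` -/
def FJ (S : K →L[ℝ] KK F.toPre κ) (α : M → Fm κ K) : Prop :=
  SBd I α ∧ ∀ h, Is F.toPre 0 _ (S h) fun z => ct h (α z)

theorem isClosed_is (S : K →L[ℝ] KK F.toPre κ) (α : M → Fm κ K) :
    IsClosed {h | Is F.toPre 0 _ (S h) fun z => ct h (α z)} :=
  IsSeqClosed.isClosed fun g h hg hl => by
    obtain ⟨n, n1, n2⟩ := (tendstoInMeasure_of_tendsto_Lp ((((F.toL2 0 _).continuous.comp
      S.continuous).tendsto h).comp hl)).exists_seq_tendsto_ae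
    filter_upwards [n2, ae_all_iff.2 hg] with z a b
    refine tendsto_nhds_unique a ?_
    simp only [comp_apply, b]
    exact ((cont_ct _).tendsto h).comp (hl.comp n1.tendsto_atTop)

namespace FJ
variable {S T : K →L[ℝ] KK F.toPre κ}

theorem lj (h : FJ F S α) (k : K) : LJ F (S k) fun z => ct k (α z) := ⟨sbd_ct h.1 k, h.2 k⟩

theorem unique (h : FJ F S α) (k : FJ F S β) : α = β :=
  funext fun z => ext_ct fun g => congrFun ((h.lj g).eq (k.lj g)) z

theorem op_eq (h : FJ F S α) (k : FJ F T α) : S = T :=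
  ContinuousLinearMap.ext fun g => (h.2 g).unique (k.2 g)

theorem right (h : FJ F S α) (R : K' →L[ℝ] K) : FJ F (S ∘L R) fun z => fb (adjoint R) (α z) :=
  ⟨sbd_fb h.1 _, fun k => by simpa only [ct_fb, ContinuousLinearMap.comp_apply] using h.2 (R k)⟩

theorem op (h : FJ F S α) {B : M → En κ} (hB : SBd I B) :
    FJ F (mO F.toPre B ∘L S) fun z => amp K (B z) (α z) :=
  let ⟨c, hc⟩ := hB.2
  ⟨sbd_amp hB h.1, fun k => by
    simpa only [ct_amp, ContinuousLinearMap.comp_apply] using ((jo_mul hB.1 (abs_nonneg c)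
      fun x => (hc x).trans (le_abs_self c)).2.1 _ _ (h.lj k)).2⟩

theorem res (h : FJ F S α) (hT : F.Tame C) (hA : Mc I A) {G : KK F.toPre κ →L[ℝ] KK F.toPre κ}
    (hG : JO F G (F.res A)) : FJ F (G ∘L S) (F.res (aA K A) α) :=
  ⟨⟨sm_res F _ _, bdd_res F _ _⟩, fun k => by
    simpa only [(res_amp hT hA h.1).2, ContinuousLinearMap.comp_apply] using (hG _ _ (h.lj k)).2⟩

theorem st {S : KK F.toPre κ →L[ℝ] KK F.toPre κ} {e a γ : M → VV F.toPre κ} (h : FJ F S e) {R : ℝ}
    (ha : ∀ z, a z = fb S (γ z)) (hγ : ∀ z, ‖γ z‖ ≤ R) : St (LJ F) R e a := fun z v hv =>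
  ⟨dot (γ z) v, (norm_dot _ _).trans ((mul_le_of_le_one_right (norm_nonneg _) hv).trans (hγ z)), by
    rw [show dot (a z) v = S (dot (γ z) v) by simp [dot, ha]]
    exact h.lj _⟩

end FJ

theorem sbd_one (hf : SBd I f) : SBd I fun x => f x • (1 : En κ) := hf.smul (SBd.const _)

variable (F p) in
/-- the operator `f G f' p` -/
def xJ (G : KK F.toPre κ →L[ℝ] KK F.toPre κ) (f f' : M → ℝ) : KK F.toPre κ →L[ℝ] KK F.toPre κ :=
  mO F.toPre (fun x => f x • 1) ∘L G ∘L mO F.toPre (fun x => f' x • 1) ∘L mO F.toPre p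

variable {G : KK F.toPre κ →L[ℝ] KK F.toPre κ}

theorem jo_sbd {T : M → En κ} (hT : SBd I T) : JO F (mO F.toPre T) fun σ x => T x (σ x) :=
  let ⟨c, hc⟩ := hT.2
  (jo_mul hT.1 (abs_nonneg c) fun x => (hc x).trans (le_abs_self c)).2.1

theorem jo_xJ (h : Pq F A p) (hG : JO F G (F.res A)) (hf : SBd I f) (hf' : SBd I f') :
    JO F (xJ F p G f f') fun σ z => f z • F.res A (fun y => f' y • p y (σ y)) z :=
  (jo_sbd (sbd_one hf)).comp (hG.comp ((jo_sbd (sbd_one hf')).comp (jo_sbd h.sbd)))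

theorem fj_bs (h : Pq F A p) (hG : JO F G (F.res A)) (hf : SBd I f) (hf' : SBd I f')
    (k : IsFld F.toPre (fun u z => f z • F.res A (fun y => f' y • p y (u y)) z) (bs F A p f f'))
    (hb : ∃ c, ∀ z, ‖bs F A p f f' z‖ ≤ c) : FJ F (xJ F p G f f') (bs F A p f f') :=
  ⟨⟨k.1, hb⟩, fun g => (F.dense_toH 0 _).induction_on g (isClosed_is _ _) fun u => by
    simpa only [k.2] using (jo_xJ h hG hf hf' _ _ (lj_toH u)).2⟩

theorem FJ.fix {S : K →L[ℝ] KK F.toPre κ} (k : FJ F S α) (h : Pq F A p)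
    (e : ∀ z, amp K (p z) (α z) = α z) : mO F.toPre p ∘L S = S :=
  (by simpa only [e] using k.op h.sbd : FJ F _ α).op_eq k

theorem adj_xJ (h : Pq F A p) (hG : adjoint G = G) (hf : SBd I f) (hf' : SBd I f')
    (e : mO F.toPre p ∘L xJ F p G f f' = xJ F p G f f')
    (e' : mO F.toPre p ∘L xJ F p G f' f = xJ F p G f' f) :
    adjoint (xJ F p G f' f) = xJ F p G f f' := by
  have s : ∀ {f : M → ℝ}, SBd I f → adjoint (mO F.toPre fun x => f x • (1 : En κ)) =
      mO F.toPre fun x => f x • 1 := fun k => adj_mul (sbd_one k) (sbd_one k) fun z v w => by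
    simp [inner_smul_left, inner_smul_right]
  have sp := adj_mul (F := F) h.sbd h.sbd h.sym
  rw [← e', ← e]
  simp only [xJ, ContinuousLinearMap.adjoint_comp, s hf, s hf', sp, hG,
    ContinuousLinearMap.comp_assoc]

end Crest.Agent.X212.Cyl12
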