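import Crest.Agent.X212.Cyl12.Val
import Crest.Agent.X212.Cyc79.Gr
import Crest.Agent.X212.Abel74.Lit
import Crest.Agent.X212.Ten12.Lft
import Crest.Agent.X212.Cmp73.Wt

/-!
# Row 212, CYC-LIM (helper12): the resolvent of ANY metric connection on `L²`
-/

set_option autoImplicit false
set_option linter.unusedSectionVars false
noncomputable section
open scoped Manifold ContDiff Topology InnerProductSpace
open MeasureTheory Set Function Filter

namespace Crest.Agent.X212.Cyl12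
open An Dgr80 Cyc79 Sob92 Mp86
open Wz78 (nab lap)
open Abel74 (SBd)
open ContinuousLinearMap (adjoint)

variable {E : Type} [NormedAddCommGroup E] [NormedSpace ℝ E] [FiniteDimensional ℝ E]
  [MeasurableSpace E] [BorelSpace E]
  {HM : Type} [TopologicalSpace HM] {I : ModelWithCorners ℝ E HM} [I.Boundaryless]
  {M : Type} [TopologicalSpace M] [ChartedSpace HM M] [IsManifold I ∞ M]
  [MeasurableSpace M] [T2Space M] [BorelSpace M] [SecondCountableTopology M]
  {ι : Type} [Fintype ι] {F : Fr I M ι} {C : ℕ → ℝ}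

section l2
variable {V : Type} [NormedAddCommGroup V] [InnerProductSpace ℝ V] [CompleteSpace V]
  {A : ι → M → V →L[ℝ] V} {s t u v : M → V} {D : ℝ}

theorem l2_wt {w : M → ℝ} {S : ℝ} (h : Wt F w) (hA : Mc I A) (hS : L4 F.toPre S) (hS0 : 0 ≤ S)
    (hu : F.IsRes A s u) (hb : LB F.μ (fun x => (w x * ‖s x‖) ^ 2) D) :
    LB F.μ (fun x => (w x * ‖u x‖) ^ 2) (4 * D) := by
  have D0 := hb.nonneg fun x => sq_nonneg _
  have uc := hu.1.continuous
  have wc := h.sm.continuous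
  let δ : ℕ → ℝ := fun n => 1 / (n + 1)
  have δ0 : ∀ n, 0 < δ n := fun n => Nat.one_div_pos_of_nat
  have fc : ∀ n, Continuous fun x => max (w x * ‖u x‖ - (w x + 2) * δ n) 0 ^ 2 := fun n => by
    fun_prop
  have key : ∀ n, LB F.μ (fun x => max (w x * ‖u x‖ - (w x + 2) * δ n) 0 ^ 2) (4 * D) := fun n => by
    obtain ⟨v, a1, a2, a3, a4, -⟩ := (h.en_res hA hu (δ0 n)).l4_le (β := 2 * √D) hS hS0
      (by positivity) (by simpa only [mul_pow (2 : ℝ)] using hb.1.const_mul _)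
      (by
        simp only [mul_pow (2 : ℝ), integral_const_mul, Real.sq_sqrt D0]
        exact mul_le_mul_of_nonneg_left hb.2 (by norm_num)) (δ0 n) (δ0 n)
    have b : LB F.μ (fun x => v x ^ 2) (4 * D) := ⟨integ_pow a1 a2 (by norm_num), by
      rw [mul_pow, Real.sq_sqrt D0, Pre.ip] at a4
      have : 0 ≤ ∑ a, F.ip 0 (F.D a v) (F.D a v) :=
        Finset.sum_nonneg fun a _ => integral_nonneg fun x => real_inner_self_nonneg
      simp only [real_inner_self_eq_norm_sq, Real.norm_eq_abs, sq_abs] at a4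
      linarith⟩
    refine b.mono (fc n).aestronglyMeasurable (fun x => by positivity) fun x => ?_
    rcases le_total (w x * ‖u x‖ - (w x + 2) * δ n) 0 with h1 | h1
    · rw [max_eq_right h1]; simp; positivity
    · rw [max_eq_left h1]
      refine pow_le_pow_left₀ h1 ?_ 2
      linarith [a3 x, mul_le_mul_of_nonneg_left (norm_le_sqrt (u x) (δ n)) (h.pos x).le]
  refine fatou (f := fun n x => max (w x * ‖u x‖ - (w x + 2) * δ n) 0 ^ 2)
    (by fun_prop : Continuous fun x => (w x * ‖u x‖) ^ 2).measurable (fun x => by positivity)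
    (fun n => (fc n).measurable) (fun n => (key n).1) (fun n x => by positivity)
    (fun n => (key n).2) fun x => ?_
  have := (((tendsto_one_div_add_atTop_nhds_zero_nat (𝕜 := ℝ)).const_mul (w x + 2)).const_sub
    (w x * ‖u x‖)).max (tendsto_const_nhds (x := (0 : ℝ))) |>.pow 2
  rwa [mul_zero, sub_zero, max_eq_left (mul_nonneg (h.pos x).le (norm_nonneg _))] at this

/-- **bounded solutions are square integrable** -/
theorem l2_res (hT : F.Tame C) (hA : Mc I A) (hu : F.IsRes A s u)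
    (hb : LB F.μ (fun x => ‖s x‖ ^ 2) D) : LB F.μ (fun x => ‖u x‖ ^ 2) (4 * D) := by
  obtain ⟨ψ, g, l, g0, l0, hψ, hl⟩ := exists_lw hT
  obtain ⟨T, hT', h1⟩ := mem_cocompact.1 (hl.eventually (eventually_le_atBot 0))
  obtain ⟨B, hB⟩ := hT'.exists_bound_of_continuousOn hψ.sm.continuous.continuousOn
  have b : ∀ x, ψ x ≤ |B| := fun x => (em (x ∈ T)).elim
    (fun hx => (le_abs_self _).trans ((hB x hx).trans (le_abs_self _)))
    fun hx => (h1 hx).trans (abs_nonneg _)
  let ε : ℕ → ℝ := fun n => (4 * (1 + g + l))⁻¹ * (1 / (n + 1))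
  have ε0 : ∀ n, 0 < ε n := fun n => mul_pos (by positivity) Nat.one_div_pos_of_nat
  have ε1 : ∀ n, ε n * (1 + g + l) ≤ 1 / 4 := fun n => by
    have : (1 : ℝ) / (n + 1) ≤ 1 := (div_le_one (by positivity)).2 (by simp)
    rw [show ε n * (1 + g + l) = 1 / 4 * (1 / (n + 1)) by simp only [ε]; field_simp]
    linarith
  have εt : Tendsto ε atTop (𝓝 0) := by
    simpa only [mul_zero] using
      (tendsto_one_div_add_atTop_nhds_zero_nat (𝕜 := ℝ)).const_mul (4 * (1 + g + l))⁻¹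
  have ex : ∀ a : ℝ, Tendsto (fun n => Real.exp (ε n * a) ^ 2) atTop (𝓝 1) := fun a => by
    simpa using ((Real.continuous_exp.tendsto _).comp (εt.mul_const a)).pow 2
  have uc := hu.1.continuous
  have sc := (sm_isRes hA.sm hu).continuous
  have pc := hψ.sm.continuous
  refine LB.lim (f := fun n x => (Real.exp (ε n * ψ x) * ‖u x‖) ^ 2)
    (b := fun n => 4 * (Real.exp (ε n * |B|) ^ 2 * D)) (Continuous.measurable (by fun_prop))
    (fun x => sq_nonneg _) (fun n => Continuous.measurable (by fun_prop)) (fun n x => sq_nonneg _)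
    (fun n => l2_wt (((hψ.mul (ε0 n).le).mono ?_ ?_).wt (hl.const_mul_atBot (ε0 n))) hA
      ((l4_of_tame hT).mono (le_abs_self _)) (abs_nonneg _) hu ((hb.mul (sq_nonneg _)).mono
        (Continuous.aestronglyMeasurable (by fun_prop)) (fun x => sq_nonneg _) fun x => ?_))
    (by simpa using ((ex |B|).mul_const D).const_mul 4)
    fun x => by simpa only [mul_pow, one_mul] using (ex (ψ x)).mul_const (‖u x‖ ^ 2)
  · nlinarith [ε0 n, ε1 n, mul_nonneg (ε0 n).le g0, mul_nonneg (ε0 n).le l0]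
  · nlinarith [ε0 n, ε1 n, mul_nonneg (ε0 n).le g0]
  · rw [mul_pow]
    have := ε0 n
    gcongr
    exact b x

theorem h1_res (hT : F.Tame C) (hA : Mc I A) (hu : F.IsRes A s u)
    (hb : LB F.μ (fun x => ‖s x‖ ^ 2) D) (a : ι) :
    Integrable (fun x => ‖nab I F.e A a u x‖ ^ 2) F.μ := by
  have k := wk0 (g := fun _ _ => 0) (exists_cut hT.exh) hA wg_one hu.1 (sm_isRes hA.sm hu).continuous
    (fun _ => contMDiff_const) (fun x => by simp [dvn, Cmp73.nab_const0, hu.2.2 x])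
    (by simpa using (l2_res hT hA hu hb).1) (D := D) (by simpa using hb)
  exact (k.mono ((Wz78.sm_nab hA.sm a hu.1).continuous.norm.pow 2).aestronglyMeasurable
    (fun x => sq_nonneg _) fun x => by
      rw [Pi.pow_apply]
      linarith [le_g2 (F := F) (A := A) (u := u) a x, sq_nonneg ‖u x‖]).1

theorem int_inner {μ : Measure M} (hu : Continuous u) (hv : Continuous v)
    (h : Integrable (fun x => ‖u x‖ ^ 2) μ) (k : Integrable (fun x => ‖v x‖ ^ 2) μ) :
    Integrable (fun x => ⟪u x, v x⟫_ℝ) μ :=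
  (h.add k).mono' (hu.inner hv).aestronglyMeasurable (.of_forall fun x => by
    rw [Pi.add_apply]
    nlinarith [norm_inner_le_norm (𝕜 := ℝ) (u x) (v x), sq_nonneg (‖u x‖ - ‖v x‖),
      mul_nonneg (norm_nonneg (u x)) (norm_nonneg (v x))])

/-- **the resolvent is symmetric** -/
theorem sym_res (hT : F.Tame C) (hA : Mc I A) (hu : F.IsRes A s u) (hv : F.IsRes A t v)
    (hs : Integrable (fun x => ‖s x‖ ^ 2) F.μ) (ht : Integrable (fun x => ‖t x‖ ^ 2) F.μ) :
    ∫ x, ⟪u x, t x⟫_ℝ ∂F.μ = ∫ x, ⟪s x, v x⟫_ℝ ∂F.μ := by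
  have u2 := (l2_res hT hA hu ⟨hs, le_rfl⟩).1
  have v2 := (l2_res hT hA hv ⟨ht, le_rfl⟩).1
  have i1 := int_inner hu.1.continuous (sm_isRes hA.sm hv).continuous u2 ht
  have i2 := int_inner (sm_isRes hA.sm hu).continuous hv.1.continuous hs v2
  have k := sa_res (g := fun _ _ => 0) (σ := s) (exists_cut hT.exh) hA hu.1 hv.1
    (fun _ => contMDiff_const) (fun x => by simp [dvn, Cmp73.nab_const0, hu.2.2 x]) hv.2.2
    (by simpa [Pi.sub_def] using i1.sub i2) fun a => by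
      simpa [Pi.sub_def] using (int_inner hu.1.continuous (Wz78.sm_nab hA.sm a hv.1).continuous u2
        (h1_res hT hA hv ⟨ht, le_rfl⟩ a)).sub (int_inner (Wz78.sm_nab hA.sm a hu.1).continuous
          hv.1.continuous (h1_res hT hA hu ⟨hs, le_rfl⟩ a) v2)
  simp only [inner_zero_left, Finset.sum_const_zero, sub_zero] at k
  rwa [integral_sub i1 i2, sub_eq_zero] at k

theorem inner_is {x y : F.H 0 (triv M V)} (h : Is F.toPre 0 _ x u) (k : Is F.toPre 0 _ y v) :
    ⟪x, y⟫_ℝ = ∫ z, ⟪u z, v z⟫_ℝ ∂F.μ := by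
  rw [← inner_toL2, L2.inner_def]
  refine integral_congr_ae ?_
  filter_upwards [h, k] with z a b
  rw [a, b]

theorem int_is {x : F.H 0 (triv M V)} (h : Is F.toPre 0 _ x u) :
    Integrable (fun z => ‖u z‖ ^ 2) F.μ := (memLp_two_iff_integrable_sq_norm h.memLp.1).1 h.memLp

theorem exists_is (hu : Continuous u) (h : Integrable (fun z => ‖u z‖ ^ 2) F.μ) :
    ∃ x : F.H 0 (triv M V), Is F.toPre 0 _ x u := by
  have m := (memLp_two_iff_integrable_sq_norm hu.aestronglyMeasurable).2 h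
  obtain ⟨g, hg⟩ := toL2_surjective (F := F.toPre) (m.toLp u)
  exact ⟨g, by rw [Is, hg]; exact m.coeFn_toLp⟩

theorem ext_test {x y : F.H 0 (triv M V)}
    (h : ∀ φ : Sec I (triv M V), ⟪F.toH 0 _ φ, x⟫_ℝ = ⟪F.toH 0 _ φ, y⟫_ℝ) : x = y :=
  ext_inner_left ℝ fun g => H_eq (f := fun g => ⟪g, x⟫_ℝ) (g := fun g => ⟪g, y⟫_ℝ)
    (by fun_prop) (by fun_prop) h g

end l2

variable {κ : Type} [Fintype κ] [DecidableEq κ] {A : ι → M → En κ} {σ τ : M → Eu κ}
  {h : KK F.toPre κ}

variable (F) in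
/-- `h` is the smooth bounded section `σ` -/
def LJ (h : KK F.toPre κ) (σ : M → Eu κ) : Prop := SBd I σ ∧ Is F.toPre 0 _ h σ

variable (F) in
/-- `R` is the operator `T` on smooth bounded sections -/
def JO (R : KK F.toPre κ →L[ℝ] KK F.toPre κ) (T : (M → Eu κ) → M → Eu κ) : Prop :=
  ∀ h σ, LJ F h σ → LJ F (R h) (T σ)

theorem sbd_sec (u : Sec I (triv M (Eu κ))) : SBd I u.1 :=
  ⟨u.2.1, u.2.1.continuous.bounded_above_of_compact_support u.2.2.1⟩

theorem lj_toH (u : Sec I (triv M (Eu κ))) : LJ F (F.toH 0 _ u) u.1 := ⟨sbd_sec u, Is.toH u⟩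

theorem LJ.eq (a : LJ F h σ) (b : LJ F h τ) : σ = τ :=
  is_eq a.2 b.2 a.1.1.continuous b.1.1.continuous

theorem isRes_sbd (hT : F.Tame C) (hA : Mc I A) (hs : SBd I σ) : F.IsRes A σ (F.res A σ) :=
  res_spec (Mon62.exists_res_sm hT hA.sm hA.sk hs.1 hs.2)

/-- **the resolvent as an operator on `L²`** -/
theorem exists_G (hT : F.Tame C) (hA : Mc I A) : ∃ G : KK F.toPre κ →L[ℝ] KK F.toPre κ,
    ‖G‖ ≤ 2 ∧ adjoint G = G ∧ JO F G (F.res A) := by
  have hB := bumps_of_tame F hT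
  have ex : ∀ {h σ}, LJ F h σ → ∃ g : KK F.toPre κ, Is F.toPre 0 _ g (F.res A σ) := fun k =>
    exists_is (sm_res F A _).continuous
      (l2_res hT hA (isRes_sbd hT hA k.1) ⟨int_is k.2, le_rfl⟩).1
  choose g hg using fun u : Sec I (triv M (Eu κ)) => ex (lj_toH u)
  have r := fun u : Sec I (triv M (Eu κ)) => isRes_sbd hT hA (sbd_sec u)
  let L : Sec I (triv M (Eu κ)) →ₗ[ℝ] KK F.toPre κ :=
    { toFun := g
      map_add' := fun u v => (hg _).unique (((hg u).add (hg v)).congr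
        (.of_eq (res_add hB hA ⟨_, r u⟩ ⟨_, r v⟩).symm))
      map_smul' := fun a u => (hg _).unique (((hg u).smul a).congr
        (.of_eq (res_smul hB hA a u.1).symm)) }
  obtain ⟨G, h1, h2⟩ := Pre.exists_ext (F := F.toPre) (k := 0) L zero_le_two fun u => by
    rw [← Pre.norm_toH]
    refine (abs_le_of_sq_le_sq' ?_ (by positivity)).2
    rw [mul_pow, sq_toH, show L u = g u from rfl, Ten12.sq_of_is (hg u)]
    exact (l2_res hT hA (r u) ⟨int_is (Is.toH u), le_rfl⟩).2.trans_eq (by norm_num)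
  have key : ∀ (φ : Sec I (triv M (Eu κ))) {h σ}, LJ F h σ →
      ⟪G (F.toH 0 _ φ), h⟫_ℝ = ∫ z, ⟪φ.1 z, F.res A σ z⟫_ℝ ∂F.μ := fun φ h σ k => by
    rw [h1, show L φ = g φ from rfl, inner_is (hg φ) k.2,
      sym_res hT hA (r φ) (isRes_sbd hT hA k.1) (int_is (Is.toH φ)) (int_is k.2)]
  have sy : adjoint G = G := by
    refine ((ContinuousLinearMap.eq_adjoint_iff G G).2 fun x y => ?_).symm
    induction x, y using H_ind₂ with
    | hP => exact isClosed_eq (by fun_prop) (by fun_prop)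
    | h u v => rw [key u (lj_toH v), h1, show L v = g v from rfl, is_inner (hg v) u]
  refine ⟨G, h2, sy, fun h σ k => ⟨Abel74.sbd_res F A σ, ?_⟩⟩
  obtain ⟨g', hg'⟩ := ex k
  rwa [ext_test (x := G h) (y := g') fun φ => by
    rw [← sy, ContinuousLinearMap.adjoint_inner_right, key φ k, is_inner hg' φ]]

/-- multiplication operators -/
theorem jo_mul {T : M → En κ} (hT : Sm I T) {c : ℝ} (c0 : 0 ≤ c) (hc : ∀ x, ‖T x‖ ≤ c) :
    ‖mO F.toPre T‖ ≤ c ∧ JO F (mO F.toPre T) (fun σ x => T x (σ x)) ∧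
      ∀ x, Is F.toPre 0 _ (mO F.toPre T x) fun z => T z (F.toL2 0 _ x z) := by
  obtain ⟨a, b⟩ := rep_mulH' (F := F.toPre) (k := 0) (p := triv M (Eu κ)) (q := triv M (Eu κ)) hT
    (fun w hw x => by obtain rfl := List.length_eq_zero_iff.1 (Nat.le_zero.1 hw); exact hc x)
    (fun _ _ _ => rfl)
  have k := toL2_rep a fun x => (T x).continuous
  refine ⟨b.trans_eq (by simp [cK, abs_of_nonneg c0]), fun h σ j => ⟨SBd.app ⟨hT, c, hc⟩ j.1, ?_⟩, k⟩
  filter_upwards [k h, j.2] with z e1 e2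
  rw [e1, e2]

theorem adj_mul {T T' : M → En κ} (hT : SBd I T) (hT' : SBd I T')
    (e : ∀ z v w, ⟪T z v, w⟫_ℝ = ⟪v, T' z w⟫_ℝ) : adjoint (mO F.toPre T') = mO F.toPre T := by
  obtain ⟨c, hc⟩ := hT.2
  obtain ⟨c', hc'⟩ := hT'.2
  refine ((ContinuousLinearMap.eq_adjoint_iff _ _).2 fun x y => ?_).symm
  rw [inner_is ((jo_mul hT.1 (abs_nonneg c) fun x => (hc x).trans (le_abs_self c)).2.2 x)
      (EventuallyEq.rfl : Is F.toPre 0 _ y _), inner_is (EventuallyEq.rfl : Is F.toPre 0 _ x _)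
      ((jo_mul hT'.1 (abs_nonneg c') fun x => (hc' x).trans (le_abs_self c')).2.2 y)]
  simp only [e]

theorem JO.comp {R R' : KK F.toPre κ →L[ℝ] KK F.toPre κ} {T T' : (M → Eu κ) → M → Eu κ}
    (a : JO F R T) (b : JO F R' T') : JO F (R ∘L R') fun σ => T (T' σ) :=
  fun h σ k => a _ _ (b h σ k)

end Crest.Agent.X212.Cyl12
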