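import Crest.Agent.X212.Cyl12.Pf
import Crest.Agent.X212.Cyl12.Lit

/-!
# Row 212, CYC-LIM (helper12): convergent sections at one limit, test sections
-/

set_option autoImplicit false
set_option linter.unusedSectionVars false
noncomputable section
open scoped Manifold ContDiff Topology InnerProductSpace
open MeasureTheory Set Function Filter

namespace Crest.Agent.X212.Cyl12
open An Dgr80 Cyc79 Cmp73 Eqv71
open Wz78 (nab lap SA pg_mem pg_of_mem)

section alg
variable {κ : Type} [Fintype κ] [DecidableEq κ] {K : Type} [NormedAddCommGroup K]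
  [InnerProductSpace ℝ K] [CompleteSpace K] {U : Type} [NormedAddCommGroup U]
  [InnerProductSpace ℝ U] [CompleteSpace U]

theorem tp_right (ρ : CL U (En κ)) (a b : Fm κ K) :
    tp (hr K ρ) a b = ∑ j, tp ρ (ct (b j) a) (EuclideanSpace.single j 1) :=
  ext_inner_right ℝ fun ξ => by
    rw [inner_tp, sum_inner, PiLp.inner_apply]
    refine Finset.sum_congr rfl fun j _ => ?_
    rw [inner_tp, ← ct_amp, EuclideanSpace.inner_single_left]
    simp [hr_apply]

theorem tp_left (ρ : CL U (En κ)) (a b : Fm κ K) :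
    tp (hr K ρ) a b = ∑ j, tp ρ (EuclideanSpace.single j 1) (ct (a j) b) :=
  ext_inner_right ℝ fun ξ => by
    rw [inner_tp, sum_inner, hr_apply, real_inner_comm,
      inner_amp fun v w => (ContinuousLinearMap.adjoint_inner_right (ρ ξ) v w).symm, PiLp.inner_apply]
    refine Finset.sum_congr rfl fun j _ => ?_
    rw [inner_tp, ← ContinuousLinearMap.adjoint_inner_left (ρ ξ), ← ct_amp,
      EuclideanSpace.inner_single_right]
    simp

theorem am2_dot {κ' : Type} [Fintype κ'] [DecidableEq κ'] (S : CL (Eu κ) (Eu κ')) (a : Fm κ K)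
    (j : κ') : am2 (ContinuousLinearMap.id ℝ K) S a j = dot a (trn S (EuclideanSpace.single j 1)) :=
  ext_inner_left ℝ fun h => by
    rw [inner_dot, inner_trn', ← ct_id, EuclideanSpace.inner_single_right]; simp

theorem dot_single (a : Fm κ K) (j : κ) : dot a (EuclideanSpace.single j 1) = a j :=
  ext_inner_left ℝ fun h => by rw [inner_dot, EuclideanSpace.inner_single_right]; simp

variable {M M' ι lam : Type} [Fintype ι] [Fintype lam] {m : Md M ι lam} {m' : Md M' ι lam} {x : M}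
  {x' : M'} {V : ι → ι → ℝ} {v : CL (Eu lam) (Eu lam)} {u : CL m.V m'.V} (e : ME m x m' x' V v u)
  {a : m.A} (ha : a ∈ m.gS x)
include e ha

theorem me_e : (∀ w, trn u (u (opL a w)) = opL a w) ∧ ∀ w, opL a (trn u (u w)) = opL a w := by
  refine ⟨fun w => (congrArg (fun T : En _ => T _) e.uu).trans
    (congrArg (fun T : En _ => T w) ha.2.1), fun w => ?_⟩
  have h2 := congrArg trn (show m.p x ∘L opL a = opL a from ha.2.1)
  rw [trn_comp, trn_of_skw ha.1, ContinuousLinearMap.neg_comp, neg_inj, ← e.uu, trn_comp,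
    trn_trn] at h2
  exact congrArg (fun T : En _ => T w) h2

theorem me_ad (ξ : m.A) : cj u (adR _ ξ a) = adR _ (cj u ξ) (cj u a) := by
  rw [adR_apply, adR_apply, Wz78.adc_apply, Wz78.adc_apply, cj_hsL]
  congr 1
  ext1 w
  simp only [opL_cj, ContinuousLinearMap.comp_apply, sub_apply, mul_apply_eq_comp, map_sub,
    (me_e e ha).1, (me_e e ha).2]

theorem me_rr (ξ : m'.A) : cj (trn u) (adR _ ξ (cj u a)) = adR _ (cj (trn u) ξ) a := by
  rw [adR_apply, adR_apply, Wz78.adc_apply, Wz78.adc_apply, cj_hsL]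
  congr 1
  ext1 w
  simp only [opL_cj, trn_trn, ContinuousLinearMap.comp_apply, sub_apply, mul_apply_eq_comp, map_sub,
    (me_e e ha).1, (me_e e ha).2]

omit ha in
theorem me_tp {a : Fm (Fin m.N × Fin m.N) K} (q : ∀ g, ct g a ∈ m.gS x) (b : Fm (Fin m.N × Fin m.N) K) :
    cj u (tp (hr K (adR _)) a b) = tp (hr K (adR _)) (am2 (ContinuousLinearMap.id ℝ K) (cj u) a)
      (am2 (ContinuousLinearMap.id ℝ K) (cj u) b) := ext_inner_right ℝ fun ξ => by
  rw [inner_tp, inner_cj, inner_tp, ← ContinuousLinearMap.adjoint_inner_right, adj_am2]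
  refine congrArg _ (ext_ct fun g => ?_)
  rw [ContinuousLinearMap.adjoint_id, ct_id, hr_apply, hr_apply, ct_amp, ct_amp, ct_id,
    show trn (cj u) = _ from adj_cj _, me_rr e (q g)]

end alg

variable {E : Type} [NormedAddCommGroup E] [NormedSpace ℝ E] [FiniteDimensional ℝ E]
  [MeasurableSpace E] [BorelSpace E]
  {HM : Type} [TopologicalSpace HM] {I : ModelWithCorners ℝ E HM} [I.Boundaryless]
  {E₀ : Type} [NormedAddCommGroup E₀] [NormedSpace ℝ E₀] [FiniteDimensional ℝ E₀]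
  [MeasurableSpace E₀] [BorelSpace E₀]
  {H₀ : Type} [TopologicalSpace H₀] {I₀ : ModelWithCorners ℝ E₀ H₀} [I₀.Boundaryless]
  {M : Type} [TopologicalSpace M] [ChartedSpace H₀ M] [IsManifold I₀ ∞ M] [MeasurableSpace M]
  [T2Space M] [BorelSpace M] [SecondCountableTopology M]
  {ι lam : Type} [Fintype ι] [Fintype lam] {α : Type}
  {X : α → Type} [∀ n, TopologicalSpace (X n)] [∀ n, ChartedSpace HM (X n)]
  [∀ n, IsManifold I ∞ (X n)] [∀ n, MeasurableSpace (X n)] [∀ n, T2Space (X n)]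
  [∀ n, BorelSpace (X n)] [∀ n, SecondCountableTopology (X n)] {r : ℕ}
  {g : Gs I I₀ M ι lam X} {c : ∀ n, Cfg (X n) ι lam r} {b : Cfg M ι lam r}
  {u : ∀ n, M → CL (c n).m.V b.m.V}

variable (g c b u) in
/-- limits of sections -/
abbrev L1 (s : ∀ n, X n → (c n).m.A) (s' : M → b.m.A) : Prop := g.LA c b (g.S c) u s s'

variable (g c b u) in
/-- convergent sections of `g` at one limit -/
structure Q1 (s : ∀ n, X n → (c n).m.A) (s' : M → b.m.A) : Prop where
  pf : ∀ x, g.Pf c x (WA c) s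
  p : ∀ n x, s n x ∈ (c n).m.gS x
  bd : g.UB s
  la : L1 g c b u s s'

variable (k : g.Bk c) (l : g.LB c b u) {s t : ∀ n, X n → (c n).m.A} {s' t' : M → b.m.A}

theorem L1.congr (h : L1 g c b u s s') (e : ∀ n x, t n x = s n x) (e' : ∀ x, t' x = s' x) :
    L1 g c b u t t' := by
  rwa [show t = s from funext fun n => funext (e n), funext e']

theorem L1.sub (h : L1 g c b u s s') (h' : L1 g c b u t t') :
    L1 g c b u (fun n x => s n x - t n x) fun x => s' x - t' x :=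
  ⟨h.sm.sub h'.sm, (h.cv.sub h'.cv).congr (fun _ _ => .of_forall fun _ => map_sub ..) fun _ _ => rfl⟩

include k l

theorem nr {x : M} (hx : x ∉ g.S c) : ∀ᶠ q in (g.l : Filter α) ×ˢ 𝓝 x, g.Nr c b u q.1 q.2 :=
  l.lim.nr k.ok k.adm hx

theorem la_of_pt {σ} (pf : ∀ x, PF (g.fb c (g.F g.Pᶜ x)) (g.bs c) σ (WA c) t) (sm : Sm I₀ t')
    (h : ∀ z ∉ g.S c, Tendsto (fun n => cj (u n z) (t n (g.ψ n z))) g.l (𝓝 (t' z))) :
    L1 g c b u t t' :=
  let ⟨_, a⟩ := k.core.A l.hyp b u l.lim _ t pf; ⟨sm, a.cv.mb, h⟩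

theorem L1.pg (h : L1 g c b u s s') :
    L1 g c b u (fun n x => (c n).m.pg x (s n x)) fun x => b.m.pg x (s' x) :=
  have spg := Std94.sm_pg k.ok.B₀ l.lim.adm.ok
  ⟨spg.clm_apply h.sm, ((Cv.fixed' spg).app h.cv).congr (fun _ hx => (nr k l hx).mono fun _ hq =>
    (hq.me.pg hq.be (k.ok.B _) k.ok.B₀ (k.adm _).ok l.lim.adm.ok _).symm) fun _ _ => rfl⟩

theorem L1.mem (h : L1 g c b u s s') (p : ∀ n x, s n x ∈ (c n).m.gS x) (x : M) : s' x ∈ b.m.gS x := by
  rw [h.unique l.lim k.ok ((h.pg k l).congr (fun n x => (pg_of_mem (p n x)).symm) fun _ => rfl)]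
  exact pg_mem ..

theorem L1.ad (h : L1 g c b u s s') (h' : L1 g c b u t t') (p : ∀ n x, t n x ∈ (c n).m.gS x) :
    L1 g c b u (fun n x => adR _ (s n x) (t n x)) fun x => adR _ (s' x) (t' x) :=
  ⟨((adR (Fin b.m.N)).contDiff.contMDiff.comp h.sm).clm_apply h'.sm, (h.cv.bil (adR _) h'.cv).congr
    (fun _ hx => (nr k l hx).mono fun _ hq => me_ad hq.me (p _ _) _) fun _ _ => rfl⟩

theorem Q1.sb (h : Q1 g c b u s s') : ∃ C, ∀ x, ‖s' x‖ ≤ C :=
  h.bd.imp fun _ => h.la.le l.lim k.ok k.adm h.p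

theorem la_res (pf : ∀ x, g.Pf c x (WA c) t) (sm : ∀ n, Sm I (t n)) (p : ∀ n x, t n x ∈ (c n).m.gS x)
    (bd : g.UB t) (e : ∀ n x, t n x + lap I (g.G n).F.e (g.G n).F.dv (WA c n) (t n) x = s n x)
    (h : L1 g c b u s s') (h' : g.G₀.F.IsRes (b.m.adW b.W) s' t') : L1 g c b u t t' := by
  obtain ⟨t₁, ht⟩ := k.core.A l.hyp b u l.lim _ t pf
  obtain ⟨C, hC⟩ := bd
  rwa [Mp86.isRes_unique (Mp86.bumps_of_tame _ k.tame.choose_spec) (Mp86.mc_adW l.lim.adm.conn) h'
    ⟨ht.sm, ⟨C, ht.le l.lim k.ok k.adm p hC⟩, Gs.QA.lim_res k l h ht sm e⟩]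

theorem Q1.res (h : Q1 g c b u s s') (e : ∀ n, Rs (g.G n).F (WA c n) (s n) (t n))
    (p : ∀ n x, t n x ∈ (c n).m.gS x) (e' : Rs g.G₀.F (b.m.adW b.W) s' t') : L1 g c b u t t' :=
  have bd : g.UB t := h.bd.imp fun C hC => hC.mono fun n hn => (e n).le C hn
  have sm := fun n => (e n).sm
  la_res k l (fun x => have a := k.gx x
    (PF.res (g := fun n => (g.G n).F.dv) a.gb.c a.gb.dv a.kA sm (bd.bd _ x)
      (fun _ _ _ => a.crv_A Sy.Le.rfl sm p) (fun n => (e n).eq) (h.pf x).pL).wP) sm p bd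
    (fun n => (e n).eq) h.la ⟨e'.sm, (h.sb k l).imp e'.le, e'.eq⟩

/-- convergent sections are controlled off the exceptional set -/
theorem L1.pf (h : L1 g c b u s s') (sm : ∀ n, Sm I (s n)) (p : ∀ n x, s n x ∈ (c n).m.gS x) {x : M}
    (hx : x ∉ g.S c) : g.Pf c x (WA c) s := by
  have a := k.gx x
  refine Fb.CB.pf ⟨a.sA, sm, fun v => ?_⟩
  induction v generalizing s s' with
  | nil =>
    obtain ⟨C, hC⟩ := (h.cv.mb 0 x hx).bdd
    exact B0.bdd (C := C) (eventually_map.2 (nF_le ((hC.and (nr k l hx)).mono fun q hq =>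
      (hq.2.norm_cj l.lim k.ok k.adm (p _ _)).ge.trans hq.1)))
  | cons i v ih =>
    have e := ih (h.nab l.lim k.ok k.adm sm i)
      (fun n => sm_nab (Wz78.frm (g.G n).F).se (a.sA n) (sm n) i)
      fun n y => Wz78.nab_mem_g (a.ok n) (a.cn n) i (sm n y) (p n)
    exact e

variable {T : Set M} (hT : IsCompact T) (hS : T ⊆ (g.S c)ᶜ) (t0 : ∀ x ∉ T, t' x = 0)
include hT hS t0

/-- **test sections** -/
theorem exists_tst (sm : Sm I₀ t') (p : ∀ x, t' x ∈ b.m.gS x) : ∃ t, Q1 g c b u t t' ∧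
    ∀ n, Sm I (t n) ∧ HasCompactSupport (t n) ∧ ∀ x ∉ g.ψ n '' T, t n x = 0 := by
  classical
  let G : α → Prop := fun n => ∀ y ∈ T, g.Nr c b u n y
  have hG : ∀ᶠ n in (g.l : Filter α), G n := ev_compact hT fun y hy => nr k l (hS hy)
  let t : ∀ n, X n → (c n).m.A := fun n => if G n then (g.ψ n '' T).indicator fun x =>
    cj (trn (u n ((g.ψ n).symm x))) (t' ((g.ψ n).symm x)) else 0
  have h0 : ∀ n, ∀ x ∉ g.ψ n '' T, t n x = 0 := fun n x hx => by
    by_cases h : G n <;> simp only [t, h, if_true, if_false, indicator_of_notMem hx, Pi.zero_apply]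
  have h1 : ∀ n, G n → ∀ z ∈ (g.ψ n).source, t n (g.ψ n z) = cj (trn (u n z)) (t' z) := fun n h z hz => by
    by_cases hz' : z ∈ T
    · simp only [t, h, if_true, indicator_of_mem (mem_image_of_mem _ hz'), (g.ψ n).left_inv hz]
    · rw [t0 z hz', map_zero, h0]
      rintro ⟨y, hy, e⟩
      exact hz' ((g.ψ n).injOn (h y hy).src hz e ▸ hy)
  have cK : ∀ n, G n → IsCompact (g.ψ n '' T) := fun n h =>
    hT.image_of_continuousOn ((g.ψ n).continuousOn.mono fun y hy => (h y hy).src)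
  have z : ∀ n, G n → ∀ x ∉ g.ψ n '' T, t n =ᶠ[𝓝 x] fun _ => 0 := fun n h x hx =>
    ((cK n h).isClosed.isOpen_compl.eventually_mem hx).mono (h0 n)
  have cs : ∀ {P : ∀ n, X n → (c n).m.A → Prop}, (∀ n x, P n x 0) →
      (∀ n y, g.Nr c b u n y → P n (g.ψ n y) (cj (trn (u n y)) (t' y))) → ∀ n x, P n x (t n x) := by
    intro P a1 a2 n x
    by_cases h : G n
    · by_cases hx : x ∈ g.ψ n '' T
      · obtain ⟨y, hy, rfl⟩ := hx
        exact h1 n h y (h y hy).src ▸ a2 n y (h y hy)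
      · exact h0 n x hx ▸ a1 n x
    · simpa only [t, h, if_false, Pi.zero_apply] using a1 n x
  have me := fun {n y} (q : g.Nr c b u n y) => q.me.symm q.be (k.adm n).ok l.lim.adm.ok
  have m : ∀ n x, t n x ∈ (c n).m.gS x := cs (P := fun n x v => v ∈ (c n).m.gS x)
    (fun _ _ => zero_mem _) fun n y q =>
      (me q).cj_mem (q.be.symm (k.ok.B n) k.ok.B₀) l.lim.adm.ok (k.adm n).ok (p y)
  have st : ∀ n, Sm I (t n) := fun n x => by
    by_cases h : G n
    · by_cases hx : x ∈ g.ψ n '' T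
      · obtain ⟨y, hy, rfl⟩ := hx
        exact Cyl58.contMDiffAt_of_comp ((k.ok.rel n).ld y (h y hy).src)
          (((sa_cj (sa_trn (h y hy).su)).app (sm y)).congr_of_eventuallyEq
            (((g.ψ n).open_source.eventually_mem (h y hy).src).mono (h1 n h)))
      · exact contMDiffAt_const.congr_of_eventuallyEq (z n h x hx)
    · simp only [t, h, if_false]; exact contMDiffAt_const
  have la : L1 g c b u t t' := ⟨sm, (Cv.fixed' sm).congr (fun y hy =>
    ((nr k l hy).and (hG.prod_inl _)).mono fun q hq => by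
      simpa only [h1 _ hq.2 _ hq.1.src, trn_trn] using (me hq.1).trn_cj (p _)) fun _ _ => rfl⟩
  obtain ⟨C, hC⟩ := sm.continuous.bounded_above_of_compact_support (.intro hT t0)
  refine ⟨t, ⟨fun x => ?_, m, .cst (C := max C 0) (cs (P := fun _ _ v => ‖v‖ ≤ max C 0)
    (fun _ _ => by simp) fun n y q => le_max_of_le_left (le_trans ?_ (hC y))), la⟩,
    fun n => ⟨st n, ?_, h0 n⟩⟩
  · by_cases hx : x ∈ T
    · exact la.pf k l st m (hS hx)
    refine (PF.zero (k.gx x).sA).congr_ev st (eventually_map.2 (ev_nF.2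
      ((((hT.isClosed.isOpen_compl.eventually_mem hx).filter_mono nhdsWithin_le_nhds).and
        self_mem_nhdsWithin).mono fun y hy => (((k.ok.src y hy.2).and (hG.prod_mk
          (hT.isClosed.isOpen_compl.eventually_mem hy.1))).mono fun q hq => z _ hq.2.1 _ ?_))))
    rintro ⟨w, hw, e⟩
    exact hq.2.2 ((g.ψ _).injOn (hq.2.1 w hw).src hq.1 e ▸ hw)
  · rw [norm_eq_sqrt_real_inner, (me q).inner_cj _ (p y), ← norm_eq_sqrt_real_inner]
  · by_cases h : G n
    · exact .intro (cK n h) (h0 n)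
    · simpa only [t, h, if_false] using HasCompactSupport.zero

theorem int_tst (ht : Q1 g c b u t t') (h0 : ∀ n, ∀ x ∉ g.ψ n '' T, t n x = 0) (hs : Q1 g c b u s s')
    (x₀ : M) : Tendsto (fun n => ∫ x, ⟪t n x, s n x⟫_ℝ ∂(g.G n).F.μ) g.l
      (𝓝 (∫ x, ⟪t' x, s' x⟫_ℝ ∂g.G₀.F.μ)) := by
  obtain ⟨C, hC⟩ := ht.bd.mul hs.bd (u := fun n x => ((⟪t n x, s n x⟫_ℝ : ℝ) : ℂ)) fun n x => by
    rw [Complex.norm_real]; exact norm_inner_le_norm _ _
  have := k.int _ l.lim.P l.lim.fin (fun n x => ((⟪t n x, s n x⟫_ℝ : ℝ) : ℂ))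
    (fun x => ((⟪t' x, s' x⟫_ℝ : ℝ) : ℂ)) T C hT (hS.trans Gs.sub_S)
    (fun n => Complex.continuous_ofReal.comp (((ht.pf x₀).sm n).continuous.inner
      ((hs.pf x₀).sm n).continuous))
    (Complex.continuous_ofReal.comp (ht.la.sm.continuous.inner hs.la.sm.continuous))
    (((ht.la.cv.bil (innerSL ℝ) hs.la.cv).clm Complex.ofRealCLM).congr (fun _ hy => (nr k l hy).mono
      fun _ hq => congrArg _ (hq.me.inner_cj _ (hs.p _ _)).symm) fun _ _ => rfl)
    (fun x hx => by simp [t0 x hx]) (hC.mono fun n hn => ⟨hn, fun x hx => by simp [h0 n x hx]⟩)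
  simp only [integral_complex_ofReal] at this
  exact (Complex.continuous_re.tendsto _).comp this

omit hT hS t0 in
/-- test sections separate sections of `g` -/
theorem eq_of_tst (h1 : Sm I₀ s') (h2 : Sm I₀ t') (p1 : ∀ x, s' x ∈ b.m.gS x) (p2 : ∀ x, t' x ∈ b.m.gS x)
    (h : ∀ (w : M → b.m.A) T, IsCompact T → T ⊆ (g.S c)ᶜ → (∀ x ∉ T, w x = 0) → Sm I₀ w →
      (∀ x, w x ∈ b.m.gS x) → ∫ x, ⟪w x, s' x⟫_ℝ ∂g.G₀.F.μ = ∫ x, ⟪w x, t' x⟫_ℝ ∂g.G₀.F.μ) :
    s' = t' := l.lim.ext k.ok h1.continuous h2.continuous fun x hx => by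
  have := Manifold.locallyCompact_of_finiteDimensional (M := M) I₀
  have := Sob92.openPos g.G₀.F.toPre
  obtain ⟨T, hT, a1, a2⟩ := exists_compact_subset l.lim.op hx
  obtain ⟨η, b1, -, b3, b4, b5⟩ := exists_bump (I := I₀) (mem_interior_iff_mem_nhds.1 a1)
  have w0 : ∀ y ∉ T, η y • (s' y - t' y) = 0 := fun y hy => by
    rw [show η y = 0 from by_contra fun e => hy (b4 y e), zero_smul]
  have sw := b1.smul (h1.sub h2)
  have i : ∀ {v : M → b.m.A}, Sm I₀ v → Continuous (fun y => ⟪η y • (s' y - t' y), v y⟫_ℝ) ∧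
      HasCompactSupport fun y => ⟪η y • (s' y - t' y), v y⟫_ℝ := fun hv =>
    ⟨sw.continuous.inner hv.continuous, .intro hT fun y hy => by rw [w0 y hy, inner_zero_left]⟩
  have e := sub_eq_zero.2 (h _ T hT a2 w0 sw fun y => Submodule.smul_mem _ _ (sub_mem (p1 y) (p2 y)))
  rw [← integral_sub ((i h1).1.integrable_of_hasCompactSupport (i h1).2)
    ((i h2).1.integrable_of_hasCompactSupport (i h2).2)] at e
  simp only [← inner_sub_right] at e
  by_contra ne
  refine ((i (h1.sub h2)).1.integral_pos_of_hasCompactSupport_nonneg_nonzero (x := x) (i (h1.sub h2)).2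
    (fun y => ?_) ?_).ne' e
  · rw [real_inner_smul_left]; exact mul_nonneg (b3 y).1 real_inner_self_nonneg
  · rw [b5.self_of_nhds, one_smul]; exact inner_self_ne_zero.2 (sub_ne_zero.2 ne)

end Crest.Agent.X212.Cyl12
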