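import Crest.Agent.X212.Cyc79.Ub
import Crest.Agent.X212.Cmp73.Val

/-!
# Row 212, CYC-PF / CYC-LIM (helper12): local values of cyclic seeds.  DEFINITIONS

`K` is an abstract Hilbert space, `J h σ` means that `h ∈ K` is the section `σ`.
-/

set_option autoImplicit false
set_option linter.unusedSectionVars false
noncomputable section
open scoped Manifold ContDiff Topology InnerProductSpace
open MeasureTheory Set Function Filter

namespace Crest.Agent.X212.Cyl12
open An Dgr80 Cyc79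
open Cmp73 (VW Rs FL)
open Wz78 (nab lap)

section lists
variable {α β : Type} {τ σ : α → Type} {τ' σ' : Type} {R : (∀ n, τ n) → (β → τ') → Prop}

theorem fl_append {l₁ l₂ : ∀ n, List (τ n)} {l₁' l₂' : β → List τ'} (h : FL R l₁ l₁')
    (k : FL R l₂ l₂') : FL R (fun n => l₁ n ++ l₂ n) fun b => l₁' b ++ l₂' b := by
  induction h with
  | nil => exact k
  | cons a _ ih => exact .cons a ih

theorem fl_reverse {l : ∀ n, List (τ n)} {l' : β → List τ'} (h : FL R l l') :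
    FL R (fun n => (l n).reverse) fun b => (l' b).reverse := by
  induction h with
  | nil => exact .nil
  | cons a _ ih => simpa only [List.reverse_cons] using fl_append ih (.cons a .nil)

/-- values against values -/
theorem fl_vw {st : ∀ n, τ n → σ n → σ n → Prop} {st' : τ' → σ' → σ' → Prop}
    {Q : (∀ n, σ n) → σ' → Prop} {s₀ : ∀ n, σ n} {s₀' : σ'} (b : β) (h0 : Q s₀ s₀')
    (h : ∀ t t' s s' u u', R t t' → Q s s' → (∀ n, st n (t n) (s n) (u n)) → st' (t' b) s' u' →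
      Q u u') {l : ∀ n, List (τ n)} {l' : β → List τ'} (hl : FL R l l') {u : ∀ n, σ n} {u' : σ'}
    (hu : ∀ n, VW (st n) (s₀ n) (l n) (u n)) (hu' : VW st' s₀' (l' b) u') : Q u u' := by
  induction hl generalizing u u' with
  | nil =>
    obtain rfl : u = s₀ := funext hu
    obtain rfl : u' = s₀' := hu'
    exact h0
  | cons a _ ih =>
    choose s h1 h2 using hu
    obtain ⟨s', k1, k2⟩ := hu'
    exact h _ _ s s' u u' a (ih h1 k1) h2 k2

/-- properties of values -/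
theorem vw_ind {τ σ : Type*} {st : τ → σ → σ → Prop} {ok : τ → Prop} {Q : σ → Prop} {s₀ : σ}
    (h0 : Q s₀) (h : ∀ t s u, ok t → Q s → st t s u → Q u) :
    ∀ {l : List τ} {u : σ}, (∀ t ∈ l, ok t) → VW st s₀ l u → Q u
  | [], _, _, e => e ▸ h0
  | t :: _, _, hl, ⟨s, a, b⟩ => h t s _ (hl t List.mem_cons_self)
      (vw_ind h0 h (fun x hx => hl x (List.mem_cons_of_mem _ hx)) a) b

end lists

variable {E : Type} [NormedAddCommGroup E] [NormedSpace ℝ E] [FiniteDimensional ℝ E]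
  [MeasurableSpace E] [BorelSpace E]
  {HM : Type} [TopologicalSpace HM] {I : ModelWithCorners ℝ E HM}
  {M : Type} [TopologicalSpace M] [ChartedSpace HM M] [IsManifold I ∞ M] [MeasurableSpace M]
  {ι lam : Type} [Fintype ι] [Fintype lam] {κ : Type} [Fintype κ] [DecidableEq κ]
  {K : Type} [NormedAddCommGroup K] [InnerProductSpace ℝ K] [CompleteSpace K]
  {U : Type} [NormedAddCommGroup U] [InnerProductSpace ℝ U] [CompleteSpace U]

/-- contraction with a vector of the finite dimensional factor -/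
def dot (a : Fm κ K) (v : Eu κ) : K := ∑ i, v i • a i

theorem inner_dot (h : K) (a : Fm κ K) (v : Eu κ) : ⟪h, dot a v⟫_ℝ = ⟪ct h a, v⟫_ℝ := by
  simp [dot, inner_sum, inner_smul_right, PiLp.inner_apply, mul_comm]

theorem norm_dot (a : Fm κ K) (v : Eu κ) : ‖dot a v‖ ≤ ‖a‖ * ‖v‖ := by
  have h := (inner_dot (dot a v) a v).le.trans ((real_inner_le_norm _ _).trans
    (mul_le_mul_of_nonneg_right (norm_ct _ _) (norm_nonneg _)))
  rw [real_inner_self_eq_norm_sq, mul_assoc, sq] at h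
  rcases (norm_nonneg (dot a v)).eq_or_lt with e | e
  · rw [← e]; positivity
  · exact le_of_mul_le_mul_left h e

variable (K) in
/-- the representation on the Hilbert fibre -/
def hr (ρ : CL U (En κ)) : CL U (CL (Fm κ K) (Fm κ K)) := amp K ∘L ρ

theorem hr_apply (ρ : CL U (En κ)) (ξ : U) : hr K ρ ξ = amp K (ρ ξ) := rfl

section gen
variable (F : Fr I M ι) (A : ι → M → En κ) (p : M → En κ) (J : K → (M → Eu κ) → Prop)

/-- test sections are elements of `K` -/
def VJ : Prop := ∀ u : M → Eu κ, Sm I u → HasCompactSupport u → (∀ x, p x (u x) = u x) →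
  ∃ h, J h u ∧ ∀ h' σ, J h' σ → ⟪h, h'⟫_ℝ = ∫ x, ⟪u x, σ x⟫_ℝ ∂F.μ

/-- `b` is a value of the field of `f G f' p` -/
structure BF (f f' φ : M → ℝ) (R : ℝ) (b : M → Fm κ K) : Prop where
  loc : ∃ w : M → Fm κ K, Sm I w ∧ (∀ x, ‖w x‖ ≤ R) ∧ (∀ x, amp K (p x) (w x) = w x) ∧
    (∀ x, b x = f x • w x) ∧ ∀ x, 7 / 8 < φ x → w x + lap I F.e F.dv (aA K A) w x = 0
  sep : ∀ x, f x ≠ 0 → 1 ≤ φ x
  wk : ∀ h σ, J h σ → ∃ v, Rs F A (fun x => f' x • p x (σ x)) v ∧ (∀ x, p x (v x) = v x) ∧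
    ∀ x, ct h (b x) = f x • v x

/-- the values of `a` are contractions of the field `e` -/
def St (R : ℝ) (e a : M → Fm κ K) : Prop :=
  ∀ z v, ‖v‖ ≤ 1 → ∃ h, ‖h‖ ≤ R ∧ J (dot (a z) v) fun y => ct h (e y)

variable (K) in
/-- letters on the Hilbert fibre -/
def vH : La M → (M → Fm κ K) → (M → Fm κ K) → Prop
  | .mul f, s, u => u = fun x => f x • s x
  | .G, s, u => Rs F (aA K A) s u ∧ ∀ x, amp K (p x) (u x) = u x

variable (ρ : CL U (En κ)) (R : ℝ)

/-- values of `gc`; the transported test fields are contractions of `e` -/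
def vG (e s : M → Fm κ K) : List (La M) → (M → Fm κ K) → (M → Fm ι U) → Prop
  | [], _, η => η = 0
  | .mul f :: w, l, η => vG e s w (fun x => f x • l x) η
  | .G :: w, l, η => ∃ u₀ u l' η₀, VW (vH K F A p) s w u₀ ∧ vH K F A p .G u₀ u ∧
      vH K F A p .G l l' ∧ St J R e l' ∧ vG e s w l' η₀ ∧
        η = fun x => η₀ x - cur F (aA K A) (hr K ρ) u l' x

/-- values of `gh`; `a` is the value of `w' x x*` -/
def vgh (f f' : M → ℝ) (b b' : M → Fm κ K) (w w' : List (La M)) (L : M → En κ) (a : M → Fm κ K)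
    (η : M → Fm ι U) : Prop :=
  ∃ η₁ η₂ u m, vG F A p J ρ R b b' (w ++ xw f f') (fun x => amp K (L x) (a x)) η₁ ∧
    VW (vH K F A p) b w' u ∧
    VW (vH K F A p) (fun x => amp K (L x) (u x)) (w ++ xw f f').reverse m ∧
    vG F A p J ρ R b' b (xw f' f) m η₂ ∧ η = fun x => η₁ x + η₂ x

end gen

variable {r : ℕ}

/-- **values of a cyclic seed** -/
structure VC (F : Fr I M ι) (c : Cfg M ι lam r) (d : Cy M) (φ : M → ℝ) (R : ℝ) : Type 1 where
  K : Type
  [i1 : NormedAddCommGroup K]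
  [i2 : InnerProductSpace ℝ K]
  [i3 : CompleteSpace K]
  J : K → (M → c.m.A) → Prop
  b : M → Fm (Fin c.m.N × Fin c.m.N) K
  b' : M → Fm (Fin c.m.N × Fin c.m.N) K
  al : M → Fm (Fin c.m.N × Fin c.m.N) K
  be : M → Fm (Fin c.m.N × Fin c.m.N) K
  vj : VJ F c.m.pg J
  bf : BF F (c.m.adW c.W) c.m.pg J d.f d.f' φ R b
  bf' : BF F (c.m.adW c.W) c.m.pg J d.f' d.f (fun x => 1 - φ x) R b'
  wa : VW (vH K F (c.m.adW c.W) c.m.pg) b' (d.w ++ xw d.f d.f') al
  wb : VW (vH K F (c.m.adW c.W) c.m.pg) b' (d.w' ++ xw d.f d.f') be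
  sa : St J R b al
  sb : St J R b be

attribute [instance] VC.i1 VC.i2 VC.i3

namespace VC
variable {F : Fr I M ι} {c : Cfg M ι lam r} {d : Cy M} {φ : M → ℝ} {R : ℝ} (v : VC F c d φ R)

/-- the value of the seed -/
def s (x : M) : c.m.A := c.m.pg x (tp (hr v.K (adR (Fin c.m.N))) (v.al x) (v.be x))

/-- `η` is a value of the gradient `sA l` -/
def A (l : M → c.m.A) (η : M → Fm ι c.m.A) : Prop :=
  ∃ R' η₁ η₂, (∀ L, 0 ≤ L → (∀ x, ‖l x‖ ≤ L) → R' ≤ R * L) ∧
    vgh F (c.m.adW c.W) c.m.pg v.J (adR _) R' d.f d.f' v.b v.b' d.w' d.w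
      (fun x => adR _ (c.m.pg x (l x))) v.al η₁ ∧
    vgh F (c.m.adW c.W) c.m.pg v.J (adR _) R' d.f d.f' v.b v.b' d.w d.w'
      (fun x => adR _ (c.m.pg x (l x))) v.be η₂ ∧ η = fun x => η₁ x - η₂ x

end VC

end Crest.Agent.X212.Cyl12
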